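import Crest.Agent.N206.TW.Thr

/-!
# Row 206, S0318: atom systems with the quadratic potential (helper61)
-/

set_option autoImplicit false

namespace Crest.Agent.N206.TW

open Finset

/-- weak orders of the adhesion -/
abbrev Ord (k : ℕ) : Type := Fin (k + 1) → Fin (k + 1) → Bool

/-- the concave potential -/
def Bq (t : ℝ) : ℝ := 2 * t - t ^ 2

/-- the size of the injected noise -/
noncomputable def beta (k : ℕ) : ℝ := 1 / (2 * (Fintype.card (Ord k) : ℝ) ^ 2)

theorem beta_pos (k : ℕ) : 0 < beta k := by
  have : (0 : ℝ) < Fintype.card (Ord k) := by exact_mod_cast Fintype.card_pos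
  unfold beta; positivity

theorem beta_le_one (k : ℕ) : beta k ≤ 1 := by
  have : (1 : ℝ) ≤ Fintype.card (Ord k) := by exact_mod_cast Fintype.card_pos
  unfold beta
  rw [div_le_one (by positivity)]
  nlinarith

/-- The invariant of a weighted family of functions. -/
structure Good {V κ : Type} [Fintype κ] (d : V → V → ℝ) (o : V) (m : κ → V → ℝ) (w : κ → ℝ) :
    Prop where
  w_nonneg : ∀ p, 0 ≤ w p
  w_sum : ∑ p, w p = 1
  m_o : ∀ p, m p o = 0
  lip : ∀ (I : Finset κ) (x y : V), ∑ p ∈ I, |m p x - m p y| ≤ Bq (∑ p ∈ I, w p) * d x y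

variable {V : Type} {d : V → V → ℝ} {o : V}

theorem Good.sum_le {κ : Type} [Fintype κ] {m : κ → V → ℝ} {w : κ → ℝ} (h : Good d o m w)
    (x y : V) : ∑ p, |m p x - m p y| ≤ d x y := by
  have := h.lip univ x y
  rw [h.w_sum, Bq] at this
  linarith

theorem good_zero (hd : PMet d) (o : V) (κ : Type) [Fintype κ] [DecidableEq κ] :
    Good d o (fun (_ : Option κ) _ => 0) (fun p => if p = none then 1 else 0) := by
  refine ⟨fun p => by split_ifs <;> norm_num, by simp, fun _ => rfl, fun I x y => ?_⟩
  simp only [sub_self, abs_zero, sum_const_zero, sum_ite_eq', Bq]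
  refine mul_nonneg ?_ (hd.nonneg x y)
  split_ifs <;> norm_num

/-- merging along a map -/
theorem Good.merge {κ κ' : Type} [Fintype κ] [Fintype κ'] [DecidableEq κ'] {m : κ → V → ℝ}
    {w : κ → ℝ} (h : Good d o m w) (c : κ → κ') :
    Good d o (fun j => ∑ p with c p = j, m p) (fun j => ∑ p with c p = j, w p) := by
  refine ⟨fun j => sum_nonneg fun p _ => h.w_nonneg p, ?_, fun j => ?_, fun I x y => ?_⟩
  · rw [sum_fiberwise univ c w, h.w_sum]
  · simp [Finset.sum_apply, h.m_o]
  · rw [sum_fiberwise_eq_sum_filter]
    refine le_trans ?_ (h.lip _ x y)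
    rw [← sum_fiberwise_eq_sum_filter]
    refine sum_le_sum fun j _ => ?_
    simp only [Finset.sum_apply]
    rw [← sum_sub_distrib]
    exact abs_sum_le_sum_abs _ _

theorem sum_option_split {κ : Type} [DecidableEq κ] (I : Finset (Option κ)) (c : κ)
    (f : Option κ → ℝ) : ∑ p ∈ I, f p = ∑ j ∈ (eraseNone I).erase c, f (some j) +
      (if some c ∈ I then f (some c) else 0) + (if none ∈ I then f none else 0) := by
  have h1 : ∑ p ∈ I, f p = ∑ j ∈ eraseNone I, f (some j) + (if none ∈ I then f none else 0) := by
    rw [sum_eraseNone]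
    by_cases h : none ∈ I
    · rw [if_pos h, ← add_sum_erase I f h, ← add_sum_erase I _ h]
      simp only [Option.elim'_none, zero_add]
      rw [add_comm]
      congr 1
      refine sum_congr rfl fun p hp => ?_
      cases p with
      | none => simp at hp
      | some j => rfl
    · rw [if_neg h, add_zero]
      refine sum_congr rfl fun p hp => ?_
      cases p with
      | none => exact absurd hp h
      | some j => rfl
  rw [h1]
  congr 1
  by_cases h : some c ∈ I
  · rw [if_pos h, sum_erase_add _ _ (mem_eraseNone.2 h)]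
  · rw [if_neg h, add_zero, erase_eq_of_notMem (mt mem_eraseNone.1 h)]

/-- the functions after splitting the atom `c` -/
noncomputable def splitM {κ : Type} [DecidableEq κ] (m : κ → V → ℝ) (c : κ) (g : V → ℝ) :
    Option κ → V → ℝ
  | none => fun v => m c v / 2 - g v / 2
  | some j => if j = c then fun v => m c v / 2 + g v / 2 else m j

/-- the weights after splitting the atom `c` -/
noncomputable def splitW {κ : Type} [DecidableEq κ] (w : κ → ℝ) (c : κ) : Option κ → ℝ
  | none => w c / 2
  | some j => if j = c then w c / 2 else w j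

theorem Good.split {κ : Type} [Fintype κ] [DecidableEq κ] (hd : PMet d) {m : κ → V → ℝ}
    {w : κ → ℝ} (h : Good d o m w) (c : κ) {g : V → ℝ} (hg0 : g o = 0)
    (hg : ∀ x y, |g x - g y| ≤ w c ^ 2 / 2 * d x y) : Good d o (splitM m c g) (splitW w c) := by
  have hw := h.w_nonneg c
  have hsw : ∀ J : Finset κ, ∑ j ∈ J.erase c, splitW w c (some j) = ∑ j ∈ J.erase c, w j :=
    fun J => sum_congr rfl fun j hj => by simp [splitW, (mem_erase.1 hj).1]
  refine ⟨fun p => ?_, ?_, fun p => ?_, fun I x y => ?_⟩
  · cases p with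
    | none => simp only [splitW]; positivity
    | some j =>
      simp only [splitW]
      split_ifs
      · positivity
      · exact h.w_nonneg j
  · rw [sum_option_split univ c, hsw]
    have : eraseNone (univ : Finset (Option κ)) = univ := by ext; simp
    rw [this, ← h.w_sum, ← sum_erase_add univ w (mem_univ c)]
    simp [splitW]; ring
  · cases p with
    | none => simp [splitM, h.m_o, hg0]
    | some j =>
      simp only [splitM]
      split_ifs <;> simp [h.m_o, hg0]
  · rw [sum_option_split I c, sum_option_split I c (splitW w c), hsw]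
    set J := (eraseNone I).erase c with hJ
    have hcJ : c ∉ J := notMem_erase c _
    have e1 : ∑ j ∈ J, |splitM m c g (some j) x - splitM m c g (some j) y| =
        ∑ j ∈ J, |m j x - m j y| :=
      sum_congr rfl fun j hj => by simp [splitM, (mem_erase.1 hj).1]
    rw [e1]
    have h1 := h.lip J x y
    have h2 := h.lip (insert c J) x y
    have h3 : ∑ j ∈ insert c J, w j ≤ 1 := by
      rw [← h.w_sum]
      exact sum_le_sum_of_subset_of_nonneg (subset_univ _) fun p _ _ => h.w_nonneg p
    rw [sum_insert hcJ] at h2 h3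
    rw [sum_insert hcJ] at h2
    set t := ∑ j ∈ J, w j
    set X := ∑ j ∈ J, |m j x - m j y|
    have h4 := hg x y
    have hD := hd.nonneg x y
    set D := d x y
    set W := w c
    have ea : splitM m c g (some c) x - splitM m c g (some c) y =
        (m c x - m c y) / 2 + (g x - g y) / 2 := by simp [splitM]; ring
    have eb : splitM m c g none x - splitM m c g none y =
        (m c x - m c y) / 2 - (g x - g y) / 2 := by simp [splitM]; ring
    have ew : splitW w c (some c) = W / 2 := by simp [splitW, W]
    have ew' : splitW w c none = W / 2 := rfl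
    rw [ea, eb, ew, ew']
    set a := m c x - m c y
    set b := g x - g y
    have ha := abs_le.1 (le_refl |a|)
    have hb := abs_le.1 (le_refl |b|)
    have hp : |a / 2 + b / 2| ≤ |a| / 2 + |b| / 2 := abs_le.2 ⟨by linarith, by linarith⟩
    have hm : |a / 2 - b / 2| ≤ |a| / 2 + |b| / 2 := abs_le.2 ⟨by linarith, by linarith⟩
    have hmid : Bq (t + W / 2) * D = (Bq t * D + Bq (W + t) * D) / 2 + W ^ 2 / 4 * D := by
      simp only [Bq]; ring
    split_ifs with c1 c2 c2
    · have hboth : |a / 2 + b / 2| + |a / 2 - b / 2| ≤ |a| ∨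
          |a / 2 + b / 2| + |a / 2 - b / 2| ≤ |b| := by
        rcases abs_cases (a / 2 + b / 2) with e | e <;> rcases abs_cases (a / 2 - b / 2) with f | f
        · left; linarith
        · right; linarith
        · right; linarith
        · left; linarith
      have e2 : t + W / 2 + W / 2 = W + t := by ring
      rw [e2]
      rcases hboth with e | e
      · linarith
      · have : (Bq t + W ^ 2 / 2) * D ≤ Bq (W + t) * D := by
          refine mul_le_mul_of_nonneg_right ?_ hD
          simp only [Bq]; nlinarith
        linarith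
    · rw [add_zero, add_zero, hmid]; linarith
    · rw [add_zero, add_zero, hmid]; linarith
    · simpa using h1

variable [Fintype V]

theorem thr_zero (G : (V → Bool) → ℝ) : thr (0 : V → ℝ) G = 0 := by
  have : Tp (0 : V → ℝ) G = 0 := Tp_eq_zero fun τ hτ => by
    congr 1; funext v; simp [pat, z0, hτ.le]
  simp [thr, this]

/-- Merge the atoms with the same order on the adhesion and split the heaviest one. -/
theorem renew {k : ℕ} (hd : PMet d) {m : Option (Ord k) → V → ℝ} {w : Option (Ord k) → ℝ}
    (h : Good d o m w) (α : Fin (k + 1) → V) (ho : o ∈ Set.range α) (g : V → ℝ)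
    (hg : ∀ x y, |g x - g y| ≤ d x y) (hg0 : ∀ v ∈ Set.range α, g v = 0) :
    ∃ (m' : Option (Ord k) → V → ℝ) (w' : Option (Ord k) → ℝ), Good d o m' w' ∧
      (∀ G, DependsOn G (Set.range α) → ∑ p, thr (m' p) G = ∑ p, thr (m p) G) ∧
      ∃ c, ∀ v, m' (some c) v - m' none v = beta k * g v := by
  classical
  let cl : Option (Ord k) → Ord k := fun p i j => decide (m p (α i) ≤ m p (α j))
  have h1 := h.merge cl
  set M : Ord k → V → ℝ := fun j => ∑ p with cl p = j, m p with hM
  set W : Ord k → ℝ := fun j => ∑ p with cl p = j, w p with hW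
  have hT : (0 : ℝ) < Fintype.card (Ord k) := by exact_mod_cast Fintype.card_pos
  obtain ⟨c, -, hc⟩ := exists_le_of_sum_le (s := univ) (f := fun _ : Ord k =>
      1 / (Fintype.card (Ord k) : ℝ)) (g := W) univ_nonempty (by
    rw [h1.w_sum, sum_const, card_univ, nsmul_eq_mul, mul_one_div_cancel hT.ne'])
  have hβ : beta k ≤ W c ^ 2 / 2 := by
    have : (1 / (Fintype.card (Ord k) : ℝ)) ^ 2 ≤ W c ^ 2 := by gcongr
    have e : beta k = (1 / (Fintype.card (Ord k) : ℝ)) ^ 2 / 2 := by
      unfold beta; field_simp
    linarith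
  refine ⟨splitM M c fun v => beta k * g v, splitW W c, h1.split hd c (by simp [hg0 o ho])
    fun x y => ?_, fun G hG => ?_, c, fun v => by simp [splitM]⟩
  · rw [← mul_sub, abs_mul, abs_of_pos (beta_pos k)]
    exact mul_le_mul hβ (hg x y) (abs_nonneg _) (by positivity)
  · have e1 : ∀ j, thr (M j) G = ∑ p with cl p = j, thr (m p) G := by
      intro j
      rcases (univ.filter fun p => cl p = j).eq_empty_or_nonempty with he | ⟨p₀, hp₀⟩
      · simp only [hM, he, sum_empty, thr_zero]
      obtain ⟨L, hL⟩ := exists_linear_thr ho (m p₀) hG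
      have hc : ∀ p ∈ univ.filter fun p => cl p = j, Cone (Set.range α) o (m p₀) (m p) := by
        intro p hp
        refine ⟨h.m_o p, ?_⟩
        rintro _ ⟨i, rfl⟩ _ ⟨i', rfl⟩ hle
        have e : cl p i i' = cl p₀ i i' := by rw [(mem_filter.1 hp).2, (mem_filter.1 hp₀).2]
        simpa [cl, hle] using e
      rw [hL (M j) ⟨h1.m_o j, fun u hu v hv hle => ?_⟩, sum_congr rfl fun p hp => hL _ (hc p hp)]
      · simp only [hM, map_sum]
      · simp only [hM, Finset.sum_apply]
        exact sum_le_sum fun p hp => (hc p hp).2 u hu v hv hle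
    have e2 : thr (M c) G = thr (fun v => M c v / 2) G + thr (fun v => M c v / 2) G := by
      obtain ⟨L, hL⟩ := exists_linear_thr ho (M c) hG
      rw [hL (M c) ⟨h1.m_o c, fun _ _ _ _ h => h⟩,
        hL (fun v => M c v / 2) ⟨by simp [h1.m_o c], fun _ _ _ _ h => by linarith⟩, ← map_add]
      congr 1; funext v; simp
    rw [← sum_fiberwise univ cl (fun p => thr (m p) G), ← sum_congr rfl fun j _ => e1 j,
      sum_option_split univ c, ← sum_erase_add univ (fun j => thr (M j) G) (mem_univ c), e2]
    have : eraseNone (univ : Finset (Option (Ord k))) = univ := by ext; simp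
    rw [this, if_pos (mem_univ _), if_pos (mem_univ _), add_assoc]
    congr 1
    · exact sum_congr rfl fun j hj => by simp [splitM, (mem_erase.1 hj).1]
    · congr 1
      · exact thr_congr_dep hG fun v hv => by simp [splitM, hg0 v hv]
      · exact thr_congr_dep hG fun v hv => by simp [splitM, hg0 v hv]

end Crest.Agent.N206.TW
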