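import Crest.Agent.N206.TW.Defs

/-!
# Row 206, S0318: kept times along a root path, the sandwich lemma and the lower bound in a bag
(helper61)
-/

set_option autoImplicit false

namespace Crest.Agent.N206.TW

open Set

variable {V : Type} {k : ℕ}

/-- distance to an enumerated set -/
noncomputable def dA (d : V → V → ℝ) (α : Fin (k + 1) → V) (z : V) : ℝ := ⨅ c, d z (α c)

section dA

variable {d : V → V → ℝ} {α : Fin (k + 1) → V}

theorem dA_le {z u : V} (hu : u ∈ range α) : dA d α z ≤ d z u := by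
  obtain ⟨c, rfl⟩ := hu
  exact ciInf_le (Finite.bddBelow_range _) c

theorem exists_dA (d : V → V → ℝ) (α : Fin (k + 1) → V) (z : V) :
    ∃ u ∈ range α, dA d α z = d z u := by
  obtain ⟨c, hc⟩ := exists_eq_ciInf_of_finite (f := fun c => d z (α c))
  exact ⟨α c, ⟨c, rfl⟩, hc.symm⟩

theorem dA_nonneg (hd : PMet d) (z : V) : 0 ≤ dA d α z := by
  obtain ⟨u, -, h⟩ := exists_dA d α z
  rw [h]; exact hd.nonneg _ _

theorem dA_eq_zero (hd : PMet d) {z : V} (hz : z ∈ range α) : dA d α z = 0 :=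
  le_antisymm ((dA_le hz).trans_eq (hd.self z)) (dA_nonneg hd z)

theorem dA_tri (hd : PMet d) (x y : V) : dA d α x ≤ d x y + dA d α y := by
  obtain ⟨u, hu, h⟩ := exists_dA d α y
  rw [h]
  exact (dA_le hu).trans (hd.tri _ _ _)

end dA

/-- the features created at a node with adhesion `α` and bag `γ` -/
noncomputable def feat (d : V → V → ℝ) (α γ : Fin (k + 1) → V) :
    Option (Fin (k + 1) × Fin (k + 1)) → V → ℝ
  | none => dA d α
  | some p => fun z => min (dA d α z) (max (d z (γ p.2) - d (γ p.1) (γ p.2) / 2) 0)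

theorem feat_lip {d : V → V → ℝ} (hd : PMet d) (α γ : Fin (k + 1) → V)
    (φ : Option (Fin (k + 1) × Fin (k + 1))) (x y : V) :
    |feat d α γ φ x - feat d α γ φ y| ≤ d x y := by
  have key : ∀ x y, feat d α γ φ x ≤ d x y + feat d α γ φ y := by
    intro x y
    have h1 := dA_tri (α := α) hd x y
    cases φ with
    | none => exact h1
    | some p =>
      have h2 := hd.tri x y (γ p.2)
      have h3 := hd.nonneg x y
      simp only [feat]
      rw [← min_add_add_left, ← max_add_add_left]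
      exact min_le_min h1 (max_le_max (by linarith) (by linarith))
  have h1 := key x y
  have h2 := key y x
  rw [hd.comm y x] at h2
  exact abs_le.2 ⟨by linarith, by linarith⟩

theorem feat_eq_zero {d : V → V → ℝ} (hd : PMet d) (α γ : Fin (k + 1) → V)
    (φ : Option (Fin (k + 1) × Fin (k + 1))) {v : V} (hv : v ∈ range α) :
    feat d α γ φ v = 0 := by
  cases φ with
  | none => exact dA_eq_zero hd hv
  | some p =>
    simp only [feat, dA_eq_zero hd hv]
    exact min_eq_left (le_max_right _ _)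

/-- The adhesions `α`, `α'` look alike from the adhesion `α''` at all scales in `M`. -/
def Rel (d : V → V → ℝ) (W : ℝ) (M : Set ℝ) (α α' α'' : Fin (k + 1) → V) : Prop :=
  ∀ x ∈ M, 0 < x → ∀ u ∈ range α'', min (dA d α u) (x * W) ≤ 2 * dA d α' u + x / W

/-- The data along a root path of length `N`. -/
structure PathSys (V Fn : Type) (k : ℕ) (d : V → V → ℝ) (β C W : ℝ) (N : ℕ) where
  /-- adhesions -/
  α : ℕ → Fin (k + 1) → V
  /-- bags -/
  γ : ℕ → Fin (k + 1) → V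
  /-- disagreement of Boolean functions -/
  ρ : Fn → Fn → ℝ
  /-- vertices as Boolean functions -/
  ev : V → Fn
  /-- functions of the adhesion -/
  FA : ℕ → Set Fn
  /-- functions of the bag -/
  FB : ℕ → Set Fn
  /-- kept times -/
  K : ℕ → Finset ℕ
  /-- relevant scales -/
  M : ℕ → Set ℝ
  hd : PMet d
  hρ : PMet ρ
  up : ∀ x y, ρ (ev x) (ev y) ≤ C * d x y
  root : ∀ c c', α 0 c = α 0 c'
  adh_bag : ∀ j ≤ N, range (α j) ⊆ range (γ j)
  adh_par : ∀ j < N, range (α (j + 1)) ⊆ range (γ j)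
  sep : ∀ i l m, i ≤ l → l ≤ m → m ≤ N → ∀ z ∈ range (γ m), ∀ a ∈ range (α i),
    ∃ u ∈ range (α l), d z a = d z u + d u a
  ev_FB : ∀ j ≤ N, ∀ v ∈ range (γ j), ev v ∈ FB j
  FA_FB : ∀ j ≤ N, FA j ⊆ FB j
  FA_par : ∀ j < N, FA (j + 1) ⊆ FB j
  K_zero : K 0 = {0}
  K_new : ∀ l < N, l + 1 ∈ K (l + 1)
  K_sub : ∀ l < N, ∀ i ∈ K (l + 1), i = l + 1 ∨ i ∈ K l
  K_drop : ∀ l < N, ∀ j ∈ K l, j ∈ K (l + 1) ∨ ∃ i ∈ K l, ∃ i' ∈ K l, i ∈ K (l + 1) ∧
    i' ∈ K (l + 1) ∧ i < j ∧ j < i' ∧ Rel d W (M (l + 1)) (α i) (α i') (α (l + 1))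
  lam : ∀ i ≤ N, ∀ φ, ∃ Λ : Fn → ℝ, (∀ F ∈ FA i, Λ F = 0) ∧
    (∀ v, Λ (ev v) = β * feat d (α i) (γ i) φ v) ∧
    ∀ m ≤ N, i ∈ K m → ∀ F ∈ FB m, ∀ F' ∈ FB m, Λ F - Λ F' ≤ ρ F F'
  M_d : ∀ l ≤ N, 0 < l → ∀ a ∈ range (α l), ∀ b ∈ range (α l), d a b ∈ M l
  M_ρ : ∀ l ≤ N, 0 < l → ∀ F ∈ FA l, ∀ a ∈ range (α l), ρ F (ev a) ∈ M l

namespace PathSys

variable {Fn : Type} {d : V → V → ℝ} {β C W : ℝ} {N : ℕ} (P : PathSys V Fn k d β C W N)

theorem dA_anti {i i' m : ℕ} (h : i ≤ i') (h' : i' ≤ m) (hm : m ≤ N) {z : V}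
    (hz : z ∈ range (P.γ m)) : dA d (P.α i') z ≤ dA d (P.α i) z := by
  obtain ⟨a, ha, e⟩ := exists_dA d (P.α i) z
  obtain ⟨u, hu, e'⟩ := P.sep i i' m h h' hm z hz a ha
  have := dA_le (d := d) (z := z) hu
  linarith [P.hd.nonneg u a]

theorem K_le {l : ℕ} (hl : l ≤ N) : ∀ i ∈ P.K l, i ≤ l := by
  induction l with
  | zero => simp [P.K_zero]
  | succ l ih =>
    intro i hi
    rcases P.K_sub l hl i hi with h | h
    · exact h.le
    · exact (ih (by omega) i h).trans (Nat.le_succ l)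

theorem K_self {l : ℕ} (hl : l ≤ N) : l ∈ P.K l := by
  cases l with
  | zero => simp [P.K_zero]
  | succ l => exact P.K_new l hl

theorem K_zero_mem {l : ℕ} (hl : l ≤ N) : 0 ∈ P.K l := by
  induction l with
  | zero => simp [P.K_zero]
  | succ l ih =>
    rcases P.K_drop l hl 0 (ih (by omega)) with h | ⟨i, -, -, -, -, -, h, -⟩
    · exact h
    · omega

theorem K_anti {i m m' : ℕ} (h : i ≤ m) (h' : m ≤ m') (hm : m' ≤ N) (hi : i ∈ P.K m') :
    i ∈ P.K m := by
  induction m', h' using Nat.le_induction with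
  | base => exact hi
  | succ l hl ih =>
    rcases P.K_sub l hm i hi with e | e
    · omega
    · exact ih (by omega) e

theorem consec {t : ℕ} (ht : t ≤ N) : ∀ i ∈ P.K t, ∀ i' ∈ P.K t, i < i' →
    (∀ j ∈ P.K t, ¬ (i < j ∧ j < i')) →
    i' = i + 1 ∨ ∃ l, i' ≤ l ∧ l ≤ t ∧ Rel d W (P.M l) (P.α i) (P.α i') (P.α l) := by
  induction t with
  | zero =>
    intro i hi i' hi' h
    simp only [P.K_zero, Finset.mem_singleton] at hi hi'
    omega
  | succ t ih =>
    intro i hi i' hi' h hc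
    have ht' : t ≤ N := by omega
    have h1 := P.K_le ht i' hi'
    have hiK : i ∈ P.K t := (P.K_sub t ht i hi).resolve_left (by omega)
    rcases P.K_sub t ht i' hi' with e | hiK'
    · left
      have h2 : t ∈ P.K (t + 1) := by
        rcases P.K_drop t ht t (P.K_self ht') with h | ⟨_, _, j, hj, _, _, _, h, _⟩
        · exact h
        · have := P.K_le ht' j hj
          omega
      have h3 := hc t h2
      omega
    by_cases hc' : ∀ j ∈ P.K t, ¬ (i < j ∧ j < i')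
    · rcases ih ht' i hiK i' hiK' h hc' with e | ⟨l, h1, h2, h3⟩
      · exact Or.inl e
      · exact Or.inr ⟨l, h1, by omega, h3⟩
    push Not at hc'
    obtain ⟨j, hj, hj1, hj2⟩ := hc'
    rcases P.K_drop t ht j hj with e | ⟨a, -, b, hb, ha', hb', h2, h3, h4⟩
    · exact absurd ⟨hj1, hj2⟩ (hc j e)
    have h5 := hc a ha'
    have h6 := hc b hb'
    have h7 := P.K_le ht' b hb
    refine Or.inr ⟨t + 1, h1, le_rfl, fun x hx hx0 u hu => ?_⟩
    have hu' := P.adh_bag (t + 1) ht hu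
    have h8 := P.dA_anti (i := a) (i' := i) (by omega) (by omega) ht hu'
    have h9 := P.dA_anti (i := i') (i' := b) (by omega) (by omega) ht hu'
    have h10 := h4 x hx hx0 u hu
    have h11 : min (dA d (P.α i) u) (x * W) ≤ min (dA d (P.α a) u) (x * W) :=
      min_le_min h8 le_rfl
    linarith

/-- The sandwich lemma. -/
theorem sand {t j : ℕ} (ht : t ≤ N) (hj : j ≤ t) : j ∈ P.K t ∨ ∃ i ∈ P.K t, ∃ l, j < i ∧ i ≤ l ∧
    l ≤ t ∧ ∀ x ∈ P.M l, 0 < x → ∀ z ∈ range (P.γ t),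
      min (dA d (P.α j) z) (x * W) ≤ 2 * dA d (P.α i) z + x / W := by
  classical
  by_cases hK : j ∈ P.K t
  · exact Or.inl hK
  right
  have hj0 : 0 < j := Nat.pos_of_ne_zero fun e => hK (e ▸ P.K_zero_mem ht)
  have hjt : j < t := lt_of_le_of_ne hj fun e => hK (by rw [e]; exact P.K_self ht)
  obtain ⟨a, ha, ha'⟩ := ((P.K t).filter (· < j)).exists_max_image id
    ⟨0, by simp [P.K_zero_mem ht, hj0]⟩
  obtain ⟨b, hb, hb'⟩ := ((P.K t).filter (j < ·)).exists_min_image id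
    ⟨t, by simp [P.K_self ht, hjt]⟩
  simp only [Finset.mem_filter, id, and_imp] at ha ha' hb hb'
  rcases P.consec ht a ha.1 b hb.1 (by omega) (fun c hc h => by
    rcases lt_trichotomy c j with e | e | e
    · have := ha' c hc e; omega
    · exact hK (e ▸ hc)
    · have := hb' c hc e; omega) with e | ⟨l, h1, h2, h3⟩
  · omega
  refine ⟨b, hb.1, l, hb.2, h1, h2, fun x hx hx0 z hz => ?_⟩
  obtain ⟨c, hc, e⟩ := exists_dA d (P.α b) z
  obtain ⟨u, hu, e'⟩ := P.sep b l t h1 h2 ht z hz c hc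
  have h4 := h3 x hx hx0 u hu
  have h5 := dA_le (d := d) (z := u) hc
  have h6 := P.dA_anti (i := a) (i' := j) ha.2.le hj ht hz
  have h7 := dA_tri (α := P.α a) P.hd z u
  have h8 := P.hd.nonneg z u
  have h9 : min (dA d (P.α j) z) (x * W) ≤ d z u + min (dA d (P.α a) u) (x * W) := by
    rw [← min_add_add_left]
    exact min_le_min (by linarith) (by linarith)
  linarith

theorem r1_aux (hβ : 0 ≤ β) (hW : 24 ≤ W) {j i : ℕ} (hj : j ≤ N) (hi : i ≤ j) {a b : V}
    (ha : a ∈ range (P.γ j)) (hb : b ∈ range (P.γ j)) (hD : 0 < d a b)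
    (h1 : d a b / 10 ≤ dA d (P.α i) a)
    (h2 : ∀ l, i < l → l ≤ j → dA d (P.α l) a < d a b / 10 ∧ dA d (P.α l) b < d a b / 10) :
    β / 40 * d a b ≤ P.ρ (P.ev a) (P.ev b) := by
  have hd := P.hd
  have h3 : ∀ l, i < l → l ≤ j → ∃ a' ∈ range (P.α l), ∃ b' ∈ range (P.α l),
      d a a' < d a b / 10 ∧ d b b' < d a b / 10 := fun l hl hl' => by
    obtain ⟨a', ha', e⟩ := exists_dA d (P.α l) a
    obtain ⟨b', hb', e'⟩ := exists_dA d (P.α l) b
    exact ⟨a', ha', b', hb', e ▸ (h2 l hl hl').1, e' ▸ (h2 l hl hl').2⟩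
  have h4 : ∃ i' ∈ P.K j, i ≤ i' ∧ d a b / 40 ≤ dA d (P.α i') a := by
    rcases P.sand hj hi with h | ⟨i', hi', l, e1, e2, e3, e4⟩
    · exact ⟨i, h, le_rfl, by linarith⟩
    obtain ⟨a', ha', b', hb', f1, f2⟩ := h3 l (by omega) e3
    have t1 := hd.tri a a' b
    have t2 := hd.tri a' b' b
    have t3 := hd.tri a' a b'
    have t4 := hd.tri a b b'
    rw [hd.comm b' b] at t2
    rw [hd.comm a' a] at t3
    have hx : 0 < d a' b' := by linarith
    have h5 := e4 _ (P.M_d l (by omega) (by omega) a' ha' b' hb') hx a ha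
    have h6 : d a b / 10 ≤ min (dA d (P.α i) a) (d a' b' * W) := le_min h1 (by nlinarith)
    have h7 : d a' b' / W ≤ d a b / 20 := by
      rw [div_le_iff₀ (by linarith)]; nlinarith
    exact ⟨i', hi', e1.le, by linarith⟩
  obtain ⟨i', hi', e1, e2⟩ := h4
  have hij := P.K_le hj i' hi'
  have h5 : ∃ a' ∈ range (P.γ i'), ∃ b' ∈ range (P.γ i'),
      d a a' < d a b / 10 ∧ d b b' < d a b / 10 := by
    rcases hij.eq_or_lt with e | e
    · subst e
      exact ⟨a, ha, b, hb, by rw [hd.self]; linarith, by rw [hd.self]; linarith⟩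
    · obtain ⟨a', ha', b', hb', f⟩ := h3 (i' + 1) (by omega) e
      exact ⟨a', P.adh_par i' (by omega) ha', b', P.adh_par i' (by omega) hb', f⟩
  obtain ⟨_, ⟨c, rfl⟩, _, ⟨c', rfl⟩, f1, f2⟩ := h5
  obtain ⟨Λ, -, hΛ, hΛ'⟩ := P.lam i' (by omega) (some (c, c'))
  have h6 := hΛ' j hj hi' _ (P.ev_FB j hj a ha) _ (P.ev_FB j hj b hb)
  rw [hΛ, hΛ] at h6
  simp only [feat] at h6
  set a' := P.γ i' c
  set b' := P.γ i' c'
  have t1 := hd.tri a a' b
  have t2 := hd.tri a' b' b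
  have t3 := hd.tri a' a b'
  have t4 := hd.tri a b b'
  have t5 := hd.tri a b' b
  rw [hd.comm b' b] at t2 t5
  rw [hd.comm a' a] at t3
  have h7 : min (dA d (P.α i') b) (max (d b b' - d a' b' / 2) 0) = 0 := by
    rw [max_eq_right (by linarith), min_eq_right (dA_nonneg hd b)]
  have h8 : d a b / 40 ≤ min (dA d (P.α i') a) (max (d a b' - d a' b' / 2) 0) :=
    le_min e2 (le_max_of_le_left (by linarith))
  rw [h7] at h6
  nlinarith

/-- (R1) The lower bound inside a bag. -/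
theorem r1 (hβ : 0 ≤ β) (hW : 24 ≤ W) {j : ℕ} (hj : j ≤ N) {a b : V}
    (ha : a ∈ range (P.γ j)) (hb : b ∈ range (P.γ j)) :
    β / 40 * d a b ≤ P.ρ (P.ev a) (P.ev b) := by
  classical
  have hd := P.hd
  rcases (hd.nonneg a b).eq_or_lt with hD | hD
  · rw [← hD, mul_zero]; exact P.hρ.nonneg _ _
  let Q : ℕ → Prop := fun i => d a b / 10 ≤ dA d (P.α i) a ∨ d a b / 10 ≤ dA d (P.α i) b
  have h0 : Q 0 := by
    obtain ⟨_, ⟨c, rfl⟩, e⟩ := exists_dA d (P.α 0) a
    obtain ⟨_, ⟨c', rfl⟩, e'⟩ := exists_dA d (P.α 0) b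
    have := hd.tri a (P.α 0 c) b
    rw [P.root c' c, hd.comm] at e'
    by_contra hn
    simp only [Q, not_or, not_le] at hn
    linarith [hn.1, hn.2]
  have h1 : Q (Nat.findGreatest Q j) := Nat.findGreatest_spec (Nat.zero_le j) h0
  have h2 : ∀ l, Nat.findGreatest Q j < l → l ≤ j →
      dA d (P.α l) a < d a b / 10 ∧ dA d (P.α l) b < d a b / 10 := fun l hl hl' => by
    simpa only [Q, not_or, not_le] using Nat.findGreatest_is_greatest hl hl'
  have h3 : Nat.findGreatest Q j ≤ j := Nat.findGreatest_le j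
  generalize Nat.findGreatest Q j = i at h1 h2 h3
  rcases h1 with h | h
  · exact P.r1_aux hβ hW hj h3 ha hb hD h h2
  · rw [hd.comm a b] at hD h h2 ⊢
    rw [P.hρ.comm]
    exact P.r1_aux hβ hW hj h3 hb ha hD h fun l hl hl' => (h2 l hl hl').symm

end PathSys

end Crest.Agent.N206.TW
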