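import Crest.Agent.N206.TW.Atoms
import Crest.Agent.N206.TW.Path

/-!
# Row 206, S0318: running the atom systems down the tree (helper61)
-/

set_option autoImplicit false

namespace Crest.Agent.N206.TW

open Finset

/-- Keep the first and the last element of every class. -/
theorem keep {κ : Type} [Fintype κ] (K : Finset ℕ) (key : ℕ → κ) :
    ∃ K' ⊆ K, K'.card ≤ 2 * Fintype.card κ ∧ ∀ j ∈ K, j ∈ K' ∨
      ∃ i ∈ K', ∃ i' ∈ K', i < j ∧ j < i' ∧ key i = key i' := by
  classical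
  let K₁ := K.filter fun j => ∀ i ∈ K, key i = key j → j ≤ i
  let K₂ := K.filter fun j => ∀ i ∈ K, key i = key j → i ≤ j
  have h1 : K₁.card ≤ Fintype.card κ := by
    rw [← card_univ]
    refine card_le_card_of_injOn key (fun _ _ => by simp) fun i hi j hj e => ?_
    simp only [K₁, coe_filter, Set.mem_ofPred_eq] at hi hj
    exact le_antisymm (hi.2 j hj.1 e.symm) (hj.2 i hi.1 e)
  have h2 : K₂.card ≤ Fintype.card κ := by
    rw [← card_univ]
    refine card_le_card_of_injOn key (fun _ _ => by simp) fun i hi j hj e => ?_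
    simp only [K₂, coe_filter, Set.mem_ofPred_eq] at hi hj
    exact le_antisymm (hj.2 i hi.1 e) (hi.2 j hj.1 e.symm)
  refine ⟨K₁ ∪ K₂, union_subset (filter_subset _ _) (filter_subset _ _),
    (card_union_le _ _).trans (by omega), fun j hj => ?_⟩
  obtain ⟨a, ha, ha'⟩ := (K.filter fun i => key i = key j).exists_min_image id ⟨j, by simp [hj]⟩
  obtain ⟨b, hb, hb'⟩ := (K.filter fun i => key i = key j).exists_max_image id ⟨j, by simp [hj]⟩
  simp only [mem_filter, id, and_imp] at ha ha' hb hb'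
  have h3 : a ∈ K₁ ∪ K₂ :=
    mem_union_left _ (mem_filter.2 ⟨ha.1, fun i hi e => ha' i hi (e.trans ha.2)⟩)
  have h4 : b ∈ K₁ ∪ K₂ :=
    mem_union_right _ (mem_filter.2 ⟨hb.1, fun i hi e => hb' i hi (e.trans hb.2)⟩)
  rcases (ha' j hj rfl).eq_or_lt with e | e
  · exact Or.inl (e ▸ h3)
  rcases (hb' j hj rfl).eq_or_lt with e' | e'
  · exact Or.inl (e' ▸ h4)
  exact Or.inr ⟨a, h3, b, h4, e, e', ha.2.trans hb.2.symm⟩

/-- the dyadic level of `D` at scale `x` -/
noncomputable def lv (s : ℕ) (D x : ℝ) : Fin (2 * s + 2) :=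
  ⟨min (Nat.size ⌊min D (x * 2 ^ s) * 2 ^ s / x⌋₊) (2 * s + 1), by omega⟩

theorem le_of_lv {s : ℕ} {D D' x : ℝ} (hD' : 0 ≤ D') (hx : 0 < x) (h : lv s D x = lv s D' x) :
    min D (x * 2 ^ s) ≤ 2 * D' + x / 2 ^ s := by
  have hW : (0 : ℝ) < 2 ^ s := by positivity
  have hb : ∀ D : ℝ, Nat.size ⌊min D (x * 2 ^ s) * 2 ^ s / x⌋₊ ≤ 2 * s + 1 := fun D => by
    rw [Nat.size_le]
    have h1 : min D (x * 2 ^ s) * 2 ^ s / x ≤ ((2 ^ (2 * s) : ℕ) : ℝ) := by
      rw [div_le_iff₀ hx]
      push_cast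
      rw [two_mul, pow_add]
      nlinarith [mul_le_mul_of_nonneg_right (min_le_right D (x * 2 ^ s)) hW.le]
    have h2 := Nat.floor_le_of_le h1
    have h3 : 0 < 2 ^ (2 * s) := by positivity
    rw [pow_succ]
    omega
  have h1 := congrArg Fin.val h
  simp only [lv, min_eq_left (hb _)] at h1
  set n := ⌊min D (x * 2 ^ s) * 2 ^ s / x⌋₊ with hn
  set n' := ⌊min D' (x * 2 ^ s) * 2 ^ s / x⌋₊ with hn'
  have h2 : n ≤ 2 * n' := by
    have h3 := Nat.lt_size_self n
    rw [h1] at h3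
    rcases Nat.eq_zero_or_pos n'.size with e | e
    · rw [e] at h3; omega
    · have h4 : 2 ^ (n'.size - 1) ≤ n' := Nat.lt_size.1 (by omega)
      have h5 : 2 ^ n'.size = 2 * 2 ^ (n'.size - 1) := by
        rw [← pow_succ']; congr 1; omega
      omega
  have h3 : min D (x * 2 ^ s) * 2 ^ s / x < n + 1 := Nat.lt_floor_add_one _
  have h4 : (n' : ℝ) ≤ min D' (x * 2 ^ s) * 2 ^ s / x :=
    Nat.floor_le (by have : 0 ≤ min D' (x * 2 ^ s) := le_min hD' (by positivity); positivity)
  have h5 : (n : ℝ) ≤ 2 * n' := by exact_mod_cast h2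
  rw [div_lt_iff₀ hx] at h3
  rw [le_div_iff₀ hx] at h4
  have h6 := mul_le_mul_of_nonneg_right (min_le_left D' (x * 2 ^ s)) hW.le
  have h7 : min D (x * 2 ^ s) * 2 ^ s ≤ (2 * D' + x / 2 ^ s) * 2 ^ s := by
    rw [add_mul, div_mul_cancel₀ _ hW.ne']
    nlinarith
  exact le_of_mul_le_mul_right h7 hW

/-- indices of the features -/
abbrev Ft (k : ℕ) : Type := Option (Fin (k + 1) × Fin (k + 1))

/-- indices of the scales -/
abbrev Sc (k : ℕ) : Type :=
  Fin (k + 1) × Fin (k + 1) ⊕ Fin (k + 1) × ((Fin (k + 1) → Bool) → Bool)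

/-- the state at a node -/
structure St (V : Type) (k J : ℕ) where
  /-- kept depths -/
  K : Finset ℕ
  /-- the block hosting the features of a kept depth -/
  blk : ℕ → Fin J
  /-- atoms -/
  m : Fin J → Ft k → Option (Ord k) → V → ℝ
  /-- weights -/
  w : Fin J → Ft k → Option (Ord k) → ℝ

variable {V : Type} [Fintype V] {k J : ℕ} {d : V → V → ℝ}

/-- the cut measure of a state -/
noncomputable def St.th (S : St V k J) : ((V → Bool) → ℝ) →ₗ[ℝ] ℝ :=
  ∑ b, ∑ φ, ∑ p, thr (S.m b φ p)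

theorem St.th_apply (S : St V k J) (G : (V → Bool) → ℝ) :
    S.th G = ∑ b, ∑ φ, ∑ p, thr (S.m b φ p) G := by
  simp only [St.th, LinearMap.sum_apply]

/-- the scales seen from an adhesion -/
noncomputable def scales (d : V → V → ℝ) (θ : ((V → Bool) → ℝ) →ₗ[ℝ] ℝ)
    (α : Fin (k + 1) → V) : Sc k → ℝ
  | .inl p => d (α p.1) (α p.2)
  | .inr p => θ (dis (fun σ => p.2 (σ ∘ α)) (ev (α p.1)))

/-- installing the features of a new node in a free block -/
theorem install (hd : PMet d) {o : V} (S : St V k J) (hS : ∀ b φ, Good d o (S.m b φ) (S.w b φ))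
    (hinj : Set.InjOn S.blk S.K) {K' : Finset ℕ} (hK : K' ⊆ S.K) (hc : K'.card < J) {n : ℕ}
    (hn : n ∉ S.K) (α γ : Fin (k + 1) → V) (ho : o ∈ Set.range α) :
    ∃ S' : St V k J, S'.K = insert n K' ∧ (∀ b φ, Good d o (S'.m b φ) (S'.w b φ)) ∧
      Set.InjOn S'.blk S'.K ∧ (∀ φ, ∃ c, ∀ v, S'.m (S'.blk n) φ (some c) v -
        S'.m (S'.blk n) φ none v = beta k * feat d α γ φ v) ∧
      (∀ i ∈ K', S'.m (S'.blk i) = S.m (S.blk i)) ∧
      ∀ G, DependsOn G (Set.range α) → S'.th G = S.th G := by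
  classical
  obtain ⟨b, -, hb⟩ := exists_mem_notMem_of_card_lt_card (s := K'.image S.blk) (t := univ)
    (card_image_le.trans_lt (by simpa using hc))
  choose m' w' h1 h2 h3 using fun φ : Ft k => renew hd (hS b φ) α ho (feat d α γ φ)
    (feat_lip hd α γ φ) fun v hv => feat_eq_zero hd α γ φ hv
  have hne : ∀ i ∈ K', i ≠ n := fun i hi e => hn (e ▸ hK hi)
  have hbk : ∀ i ∈ K', S.blk i ≠ b := fun i hi e => hb (mem_image.2 ⟨i, hi, e⟩)
  refine ⟨⟨insert n K', Function.update S.blk n b, Function.update S.m b m',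
    Function.update S.w b w'⟩, rfl, fun b' φ => ?_, fun i hi j hj e => ?_, fun φ => ?_,
    fun i hi => ?_, fun G hG => ?_⟩
  · by_cases e : b' = b
    · subst e; simpa using h1 φ
    · simpa [e] using hS b' φ
  · simp only [coe_insert, Set.mem_insert_iff, mem_coe] at hi hj
    rcases hi with rfl | hi <;> rcases hj with rfl | hj
    · rfl
    · simp only [Function.update_self, Function.update_of_ne (hne j hj)] at e
      exact absurd e.symm (hbk j hj)
    · simp only [Function.update_self, Function.update_of_ne (hne i hi)] at e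
      exact absurd e (hbk i hi)
    · simp only [Function.update_of_ne (hne i hi), Function.update_of_ne (hne j hj)] at e
      exact hinj (hK hi) (hK hj) e
  · simpa using h3 φ
  · simp [hne i hi, hbk i hi]
  · simp only [St.th_apply]
    refine sum_congr rfl fun b' _ => sum_congr rfl fun φ _ => ?_
    by_cases e : b' = b
    · subst e; simpa using h2 φ G hG
    · simp [e]

namespace RTD

variable {ι : Type} (T : RTD V k d ι)

omit [Fintype V]

/-- the ancestor at a given depth -/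
def anc (t : ι) (i : ℕ) : ι := T.par^[T.dep t - i] t

theorem eq_root {t : ι} (h : T.dep t = 0) : t = T.root := by
  by_contra hn
  have := T.dep_par t hn
  omega

theorem dep_iter (t : ι) (n : ℕ) : T.dep (T.par^[n] t) = T.dep t - n := by
  induction n with
  | zero => rfl
  | succ n ih =>
    rw [Function.iterate_succ_apply']
    by_cases h : T.par^[n] t = T.root
    · rw [h, T.dep_root] at ih
      rw [h, T.par_root, T.dep_root]
      omega
    · have := T.dep_par _ h
      omega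

theorem dep_anc {t : ι} {i : ℕ} (h : i ≤ T.dep t) : T.dep (T.anc t i) = i := by
  rw [anc, dep_iter]; omega

theorem anc_self (t : ι) : T.anc t (T.dep t) = t := by simp [anc]

theorem anc_zero (t : ι) : T.anc t 0 = T.root := T.eq_root (T.dep_anc (Nat.zero_le _))

theorem anc_anc {t : ι} {i j : ℕ} (h : i ≤ j) (h' : j ≤ T.dep t) :
    T.anc (T.anc t j) i = T.anc t i := by
  rw [anc, T.dep_anc h', anc, anc, ← Function.iterate_add_apply]
  congr 1; omega

theorem par_anc {t : ι} {i : ℕ} (h : i < T.dep t) : T.par (T.anc t (i + 1)) = T.anc t i := by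
  rw [anc, anc, ← Function.iterate_succ_apply' T.par]
  congr 1; omega

theorem anc_ne_root {t : ι} {i : ℕ} (h0 : 0 < i) (h : i ≤ T.dep t) : T.anc t i ≠ T.root :=
  fun e => by have := T.dep_anc h; rw [e, T.dep_root] at this; omega

theorem sub_anc {t : ι} {i j : ℕ} (h : i ≤ j) (h' : j ≤ T.dep t) :
    T.Sub (T.anc t i) (T.anc t j) := ⟨_, T.anc_anc h h'⟩

theorem Sub.spec {T : RTD V k d ι} {t s : ι} (h : T.Sub t s) :
    T.dep t ≤ T.dep s ∧ T.anc s (T.dep t) = t := by
  obtain ⟨n, rfl⟩ := h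
  rw [dep_iter]
  refine ⟨Nat.sub_le _ _, ?_⟩
  by_cases h : n ≤ T.dep s
  · rw [anc]; congr 1; omega
  · rw [show T.dep s - n = 0 by omega, anc_zero]
    exact (T.eq_root (by rw [dep_iter]; omega)).symm

theorem exists_rec {σ : Type} (Inv : ι → σ → Prop) (R : ι → σ → σ → Prop)
    (h0 : ∃ s, Inv T.root s)
    (hs : ∀ t, t ≠ T.root → ∀ s, Inv (T.par t) s → ∃ s', Inv t s' ∧ R t s s') :
    ∃ S : ι → σ, (∀ t, Inv t (S t)) ∧ ∀ t, t ≠ T.root → R t (S (T.par t)) (S t) := by
  obtain ⟨s₀, h0⟩ := h0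
  have : Nonempty σ := ⟨s₀⟩
  choose! f hf using hs
  let F : ℕ → ι → σ := fun n => Nat.rec (fun _ => s₀) (fun _ g t => f t (g (T.par t))) n
  have h1 : ∀ t, t ≠ T.root → F (T.dep t) t = f t (F (T.dep (T.par t)) (T.par t)) := by
    intro t ht
    rw [← T.dep_par t ht]
  have h2 : ∀ n t, T.dep t = n → Inv t (F (T.dep t) t) := by
    intro n
    induction n with
    | zero => intro t ht; rw [ht, T.eq_root ht]; exact h0
    | succ n ih =>
      intro t ht
      have hr : t ≠ T.root := fun e => by rw [e, T.dep_root] at ht; omega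
      have := T.dep_par t hr
      rw [h1 t hr]
      exact (hf t hr _ (ih _ (by omega))).1
  exact ⟨fun t => F (T.dep t) t, fun t => h2 _ t rfl, fun t ht => by
    simp only [h1 t ht]; exact (hf t ht _ (h2 _ _ rfl)).2⟩

end RTD

/-- the invariant of the state at the node `t` -/
structure Inv {ι : Type} (T : RTD V k d ι) (t : ι) (S : St V k J) : Prop where
  good : ∀ b φ, Good d T.o (S.m b φ) (S.w b φ)
  inj : Set.InjOn S.blk S.K
  self : T.dep t ∈ S.K
  le : ∀ i ∈ S.K, i ≤ T.dep t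
  new : ∀ φ, ∃ c, ∀ v, S.m (S.blk (T.dep t)) φ (some c) v - S.m (S.blk (T.dep t)) φ none v =
    beta k * feat d (T.adh t) (T.bag t) φ v

/-- the relation between the state `S` at the parent and the state `S'` at `t` -/
structure Step {ι : Type} (T : RTD V k d ι) (W : ℝ) (t : ι) (S S' : St V k J) : Prop where
  old : ∀ i ∈ S'.K, i = T.dep t ∨ i ∈ S.K ∧ S'.m (S'.blk i) = S.m (S.blk i)
  drop : ∀ j ∈ S.K, j ∈ S'.K ∨ ∃ i ∈ S.K, ∃ i' ∈ S.K, i ∈ S'.K ∧ i' ∈ S'.K ∧ i < j ∧ j < i' ∧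
    Rel d W (Set.range (scales d S.th (T.adh t))) (T.adh (T.anc t i)) (T.adh (T.anc t i'))
      (T.adh t)
  th : ∀ G, DependsOn G (T.A t) → S'.th G = S.th G

/-- the number of blocks -/
noncomputable def nblk (k s : ℕ) : ℕ := 2 * (2 * s + 2) ^ Nat.card (Sc k × Fin (k + 1)) + 1

theorem build {ι : Type} (hd : PMet d) (T : RTD V k d ι) (s : ℕ) :
    ∃ S : ι → St V k (nblk k s), (∀ t, Inv T t (S t)) ∧
      ∀ t, t ≠ T.root → Step T (2 ^ s) t (S (T.par t)) (S t) := by
  classical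
  refine T.exists_rec _ _ ?_ fun t ht S hS => ?_
  · obtain ⟨S, h1, h2, h3, h4, -, -⟩ := install (J := nblk k s) hd
      ⟨∅, fun _ => ⟨0, by simp [nblk]⟩, fun _ _ _ _ => 0, fun _ _ p => if p = none then 1 else 0⟩
      (fun _ _ => good_zero hd T.o _) (by simp) (K' := ∅) (by simp) (by simp [nblk])
      (n := T.dep T.root) (by simp) (T.adh T.root) (T.bag T.root) (T.o_mem _)
    exact ⟨S, h2, h3, by simp [h1], by simp [h1], h4⟩
  · obtain ⟨K', k1, k2, k3⟩ := keep S.K fun (i : ℕ) (p : Sc k × Fin (k + 1)) =>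
      lv s (dA d (T.adh (T.anc t i)) (T.adh t p.2)) (scales d S.th (T.adh t) p.1)
    have hp := T.dep_par t ht
    rw [Fintype.card_fun, Fintype.card_fin, ← Nat.card_eq_fintype_card] at k2
    obtain ⟨S', h1, h2, h3, h4, h5, h6⟩ := install hd S hS.good hS.inj k1
      (by simp only [nblk]; omega) (n := T.dep t) (fun h => by have := hS.le _ h; omega)
      (T.adh t) (T.bag t) (T.o_mem _)
    refine ⟨S', ⟨h2, h3, by simp [h1], fun i hi => ?_, h4⟩, fun i hi => ?_, fun j hj => ?_, h6⟩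
    · rw [h1, mem_insert] at hi
      rcases hi with e | e
      · exact e.le
      · have := hS.le i (k1 e); omega
    · rw [h1, mem_insert] at hi
      exact hi.imp id fun e => ⟨k1 e, h5 i e⟩
    · rw [h1]
      rcases k3 j hj with e | ⟨i, hi, i', hi', e1, e2, e3⟩
      · exact Or.inl (mem_insert_of_mem e)
      refine Or.inr ⟨i, k1 hi, i', k1 hi', mem_insert_of_mem hi, mem_insert_of_mem hi', e1, e2, ?_⟩
      rintro _ ⟨x, rfl⟩ hx _ ⟨c, rfl⟩
      exact le_of_lv (dA_nonneg hd _) hx (congrFun e3 (x, c))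

end Crest.Agent.N206.TW
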