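import Crest.Agent.R206.Iface534

/-!
# Row 206, S0318 (bounded treewidth): definitions and module statements (helper61)

The proof is helper56's (atoms with a quadratic potential, kept times, Markov gluing).
-/

set_option autoImplicit false

namespace Crest.Agent.N206.TW

open Crest.GeometryTopology.GraphMetric

/-- `d` is a pseudometric. -/
structure PMet {X : Type} (d : X → X → ℝ) : Prop where
  self : ∀ x, d x x = 0
  comm : ∀ x y, d x y = d y x
  tri : ∀ x y z, d x z ≤ d x y + d y z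

theorem PMet.nonneg {X : Type} {d : X → X → ℝ} (h : PMet d) (x y : X) : 0 ≤ d x y := by
  have h1 := h.tri x y x
  rw [h.self, h.comm y x] at h1
  linarith

/-- A rooted tree decomposition of the metric `d` with enumerated bags `bag t` and adhesions `adh t`
(`k + 1` entries, repetitions allowed); the vertex `o` lies in all adhesions. -/
structure RTD (V : Type) (k : ℕ) (d : V → V → ℝ) (ι : Type) where
  /-- the root -/
  root : ι
  /-- the parent -/
  par : ι → ι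
  /-- the depth -/
  dep : ι → ℕ
  /-- the base vertex -/
  o : V
  /-- the bags -/
  bag : ι → Fin (k + 1) → V
  /-- the adhesions -/
  adh : ι → Fin (k + 1) → V
  par_root : par root = root
  dep_root : dep root = 0
  dep_par : ∀ t, t ≠ root → dep (par t) + 1 = dep t
  adh_root : ∀ c, adh root c = o
  o_mem : ∀ t, o ∈ Set.range (adh t)
  adh_bag : ∀ t, Set.range (adh t) ⊆ Set.range (bag t)
  adh_par : ∀ t, Set.range (adh t) ⊆ Set.range (bag (par t))
  cover : ∀ v, ∃ t, v ∈ Set.range (bag t)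
  /-- running intersection: `s` is not a descendant of `t` -/
  run : ∀ t s, (¬ ∃ n, par^[n] s = t) →
    Set.range (bag t) ∩ Set.range (bag s) ⊆ Set.range (adh t)
  /-- geodesics leave the subtree of `l` through its adhesion -/
  sep : ∀ l s s', (∃ n, par^[n] s = l) → (¬ ∃ n, par^[n] s' = l) →
    ∀ z ∈ Set.range (bag s), ∀ a ∈ Set.range (bag s'),
      ∃ u ∈ Set.range (adh l), d z a = d z u + d u a
  /-- Lipschitz bounds are checked inside the bags -/
  lip : ∀ (ρ : V → V → ℝ) (C : ℝ), 0 ≤ C → PMet ρ →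
    (∀ t, ∀ x ∈ Set.range (bag t), ∀ y ∈ Set.range (bag t), ρ x y ≤ C * d x y) →
    ∀ x y, ρ x y ≤ C * d x y

namespace RTD

variable {V ι : Type} {k : ℕ} {d : V → V → ℝ} (T : RTD V k d ι)

/-- the bag as a set -/
def B (t : ι) : Set V := Set.range (T.bag t)

/-- the adhesion as a set -/
def A (t : ι) : Set V := Set.range (T.adh t)

/-- `s` is a descendant of `t` (or equal) -/
def Sub (t s : ι) : Prop := ∃ n, T.par^[n] s = t

/-- the vertices below `t` -/
def In (t : ι) : Set V := {v | ∃ s, T.Sub t s ∧ v ∈ T.B s}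

/-- the vertices of the bags which are not below `t` -/
def Out (t : ι) : Set V := {v | ∃ s, ¬ T.Sub t s ∧ v ∈ T.B s}

end RTD

/-- (Tree) Rooting a tree decomposition. -/
def TreeStmt : Prop :=
  ∀ (k : ℕ) (V : Type) [Fintype V] (G : SimpleGraph V), G.Connected → HasTreeDecompWithBags G k →
    ∀ ℓ : Sym2 V → ℝ, (∀ e ∈ G.edgeSet, 0 < ℓ e) →
      ∃ (ι : Type) (_ : Fintype ι), Nonempty (RTD V k (wdist G ℓ) ι)

/-- A positive normalised linear functional (an expectation). -/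
structure IsEx {Ω : Type} (E : (Ω → ℝ) →ₗ[ℝ] ℝ) : Prop where
  pos : ∀ f, (∀ ω, 0 ≤ f ω) → 0 ≤ E f
  one : E (fun _ => 1) = 1

/-- (Glue) Markov gluing of consistent laws along the tree. -/
def GlueStmt : Prop :=
  ∀ (V ι : Type) [Fintype V] [Fintype ι] (k : ℕ) (d : V → V → ℝ) (T : RTD V k d ι)
    (ν : ι → ((V → Bool) → ℝ) →ₗ[ℝ] ℝ), (∀ t, IsEx (ν t)) →
    (∀ t f, DependsOn f (T.A t) → ν t f = ν (T.par t) f) →
    ∃ E : ((V → Bool) → ℝ) →ₗ[ℝ] ℝ, IsEx E ∧ (∀ t f, DependsOn f (T.B t) → E f = ν t f) ∧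
      ∀ t, t ≠ T.root → ∀ f, DependsOn f (T.In t) → (∀ σ, 0 ≤ f σ ∧ f σ ≤ 1) →
        ∃ q : (V → Bool) → ℝ, DependsOn q (T.A t) ∧ (∀ σ, 0 ≤ q σ ∧ q σ ≤ 1) ∧
          ∀ g, DependsOn g (T.Out t) → E (fun σ => f σ * g σ) = E (fun σ => q σ * g σ)

/-- (Markov) Thresholds for a martingale with at most `s` values at every time. -/
def MarkovStmt : Prop :=
  ∀ s : ℕ, ∃ C : ℝ, 0 < C ∧ ∀ (Ω : Type) (E : (Ω → ℝ) →ₗ[ℝ] ℝ), IsEx E →
    ∀ (q : ℕ → Ω → ℝ) (j₀ n : ℕ), j₀ ≤ n →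
      (∀ j, ∃ Q : Finset ℝ, Q.card ≤ s ∧ ∀ ω, q j ω ∈ Q) →
      (∀ j, j₀ ≤ j → j < n → ∀ φ : ℝ → ℝ, E (fun ω => (q (j + 1) ω - q j ω) * φ (q j ω)) = 0) →
      ∃ th : ℕ → ℝ, (∀ j, 1 / 4 ≤ th j ∧ th j ≤ 3 / 4) ∧
        ∑ j ∈ Finset.Ico j₀ n,
            E (fun ω => if (th j < q j ω ↔ th (j + 1) < q (j + 1) ω) then 0 else 1) ≤
          C * (E (fun ω => q n ω ^ 2) - E (fun ω => q j₀ ω ^ 2))

/-- (Main) A cut measure which is bi-Lipschitz equivalent to the metric. -/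
def MainStmt : Prop :=
  ∀ k : ℕ, ∃ C : ℝ, 0 ≤ C ∧ ∀ (V ι : Type) [Fintype V] [Fintype ι] (d : V → V → ℝ), PMet d →
    RTD V k d ι → ∃ (E : ((V → Bool) → ℝ) →ₗ[ℝ] ℝ) (Z : ℝ), IsEx E ∧ 0 ≤ Z ∧ ∀ x y,
      d x y ≤ Z * E (fun σ => if σ x = σ y then 0 else 1) ∧
        Z * E (fun σ => if σ x = σ y then 0 else 1) ≤ C * d x y

end Crest.Agent.N206.TW
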