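import Crest.Agent.N206.TW.Tree

/-!
# Row 206, S0318: from `MainStmt` to the `L¹` embedding (helper20)
-/

set_option autoImplicit false

namespace Crest.Agent.N206.TW

open MeasureTheory Crest.GeometryTopology.GraphMetric Crest.Agent.R206.Iface534

theorem ex_eq_cutw {V : Type} [Fintype V] [DecidableEq V] (E : ((V → Bool) → ℝ) →ₗ[ℝ] ℝ)
    (hE : IsEx E) (Z : ℝ) (hZ : 0 ≤ Z) : ∃ w : Finset V → ℝ, (∀ S, 0 ≤ w S) ∧
      ∀ x y, cutw w x y = Z * E (fun σ => if σ x = σ y then 0 else 1) := by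
  let e : Finset V ≃ (V → Bool) :=
    ⟨fun S v => decide (v ∈ S), fun σ => Finset.univ.filter fun v => σ v = true,
      fun S => by ext v; simp, fun σ => by funext v; simp⟩
  refine ⟨fun S => Z * E (Pi.single (e S) 1), fun S => mul_nonneg hZ (hE.pos _ fun ω => ?_),
    fun x y => ?_⟩
  · rw [Pi.single_apply]; split_ifs <;> norm_num
  · have h1 : (fun σ : V → Bool => if σ x = σ y then (0 : ℝ) else 1)
        = ∑ S : Finset V, (if (x ∈ S ↔ y ∈ S) then (0 : ℝ) else 1) •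
          (Pi.single (e S) 1 : (V → Bool) → ℝ) := by
      funext σ
      obtain ⟨S, rfl⟩ := e.surjective σ
      rw [Finset.sum_apply, Finset.sum_eq_single S (fun S' _ hS' => by
        rw [Pi.smul_apply, Pi.single_eq_of_ne (fun h => hS' (e.injective h).symm), smul_zero])
        (by simp)]
      simp [e]
    rw [h1, map_sum, Finset.mul_sum, cutw]
    refine Finset.sum_congr rfl fun S _ => ?_
    rw [map_smul, smul_eq_mul]; ring

theorem s0318_of_main (h : MainStmt) :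
    ∀ k : ℕ, 2 ≤ k → ∃ C : ℝ, ∀ (V : Type) [Fintype V] (G : SimpleGraph V), G.Connected →
      HasTreeDecompWithBags G k →
      ∀ ℓ : Sym2 V → ℝ, (∀ e ∈ G.edgeSet, 0 < ℓ e) →
        ∃ (Ω : Type) (_ : MeasurableSpace Ω) (μ : Measure Ω) (f : V → Lp ℝ 1 μ),
          ∀ x y : V, wdist G ℓ x y ≤ ‖f x - f y‖ ∧ ‖f x - f y‖ ≤ C * wdist G ℓ x y := by
  classical
  intro k _
  obtain ⟨C, -, hC⟩ := h k
  refine ⟨C, fun V _ G hG hdec ℓ hℓ => ?_⟩
  obtain ⟨ι, _, ⟨T⟩⟩ := tree k V G hG hdec ℓ hℓ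
  obtain ⟨E, Z, hE, hZ, hd⟩ := hC V ι (wdist G ℓ)
    ⟨wdist_self hG hℓ, wdist_comm hG hℓ, wdist_triangle hG hℓ⟩ T
  obtain ⟨w, hw, hcut⟩ := ex_eq_cutw E hE Z hZ
  obtain ⟨Ω, m, μ, f, hf⟩ := exists_Lp_of_cuts w hw
  refine ⟨Ω, m, μ, f, fun x y => ?_⟩
  rw [hf, hcut]
  exact hd x y

end Crest.Agent.N206.TW
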