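import Crest.Agent.N206.TW.Defs

/-!
# Row 206, S0318: Markov gluing of consistent laws along a rooted tree decomposition (helper4)
-/

set_option autoImplicit false

namespace Crest.Agent.N206.TW

open Classical

namespace Glue

variable {Ω : Type}

theorem ex_mono {E : (Ω → ℝ) →ₗ[ℝ] ℝ} (h : IsEx E) {f g : Ω → ℝ} (hfg : ∀ ω, f ω ≤ g ω) :
    E f ≤ E g := by
  have h1 := h.pos (g - f) (fun ω => by simpa using hfg ω)
  rw [map_sub] at h1
  linarith

theorem ex_const {E : (Ω → ℝ) →ₗ[ℝ] ℝ} (h : IsEx E) (c : ℝ) : E (fun _ => c) = c := by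
  have h1 : (fun _ : Ω => c) = c • (fun _ : Ω => (1 : ℝ)) := by
    funext ω; simp
  rw [h1, map_smul, h.one]; simp

theorem ex_null [Fintype Ω] {E : (Ω → ℝ) →ₗ[ℝ] ℝ} (h : IsEx E) (χ f : Ω → ℝ)
    (hχ : ∀ ω, 0 ≤ χ ω) (h0 : E χ = 0) : E (fun ω => χ ω * f ω) = 0 := by
  set M : ℝ := ∑ ω, |f ω| with hM
  have hb : ∀ ω, |f ω| ≤ M := fun ω =>
    Finset.single_le_sum (f := fun ω => |f ω|) (fun _ _ => abs_nonneg _) (Finset.mem_univ ω)
  have h1 : E (fun ω => χ ω * f ω) ≤ E (M • χ) := ex_mono h (fun ω => by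
    have := (abs_le.1 (hb ω)).2
    simp only [Pi.smul_apply, smul_eq_mul]
    nlinarith [hχ ω])
  have h2 : E ((-M) • χ) ≤ E (fun ω => χ ω * f ω) := ex_mono h (fun ω => by
    have := (abs_le.1 (hb ω)).1
    simp only [Pi.smul_apply, smul_eq_mul]
    nlinarith [hχ ω])
  rw [map_smul, h0] at h1 h2
  simp at h1 h2
  linarith

variable {V : Type}

/-- the indicator of agreeing with `s` on `A` -/
noncomputable def ind (A : Set V) (s τ : V → Bool) : ℝ := if ∀ v ∈ A, τ v = s v then 1 else 0

/-- the restriction to `A`, extended by `false` -/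
noncomputable def res (A : Set V) (s : V → Bool) : V → Bool := fun v => if v ∈ A then s v else false

/-- multiplication by a function, as a linear map -/
noncomputable def mulL (χ : Ω → ℝ) : (Ω → ℝ) →ₗ[ℝ] (Ω → ℝ) where
  toFun f := fun ω => χ ω * f ω
  map_add' f g := by funext ω; simp [mul_add]
  map_smul' c f := by funext ω; simp; ring

theorem exists_cond [Fintype V] (ν : ((V → Bool) → ℝ) →ₗ[ℝ] ℝ) (hν : IsEx ν) (A : Set V) :
    ∃ μ : (V → Bool) → ((V → Bool) → ℝ) →ₗ[ℝ] ℝ, (∀ s, IsEx (μ s)) ∧
      (∀ s h₁ h₂, (∀ τ, (∀ v ∈ A, τ v = s v) → h₁ τ = h₂ τ) → μ s h₁ = μ s h₂) ∧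
      (∀ s s', (∀ v ∈ A, s v = s' v) → μ s = μ s') ∧ ∀ f, ν (fun s => μ s f) = ν f := by
  have ind0 : ∀ s τ, 0 ≤ ind A s τ := fun s τ => by unfold ind; split_ifs <;> norm_num
  let μ : (V → Bool) → ((V → Bool) → ℝ) →ₗ[ℝ] ℝ := fun s =>
    if ν (ind A s) = 0 then LinearMap.proj (res A s)
    else (ν (ind A s))⁻¹ • (ν ∘ₗ mulL (ind A s))
  have hμ0 : ∀ s f, ν (ind A s) = 0 → μ s f = f (res A s) := fun s f h => by
    simp [μ, h]
  have hμ1 : ∀ s f, ν (ind A s) ≠ 0 →
      μ s f = (ν (ind A s))⁻¹ * ν (fun τ => ind A s τ * f τ) := fun s f h => by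
    simp only [μ, h, if_false]
    rfl
  have hcongr : ∀ s s', (∀ v ∈ A, s v = s' v) → μ s = μ s' := by
    intro s s' h
    have h1 : ind A s = ind A s' := by
      funext τ
      unfold ind
      have : (∀ v ∈ A, τ v = s v) ↔ (∀ v ∈ A, τ v = s' v) :=
        ⟨fun H v hv => (H v hv).trans (h v hv), fun H v hv => (H v hv).trans (h v hv).symm⟩
      by_cases H : ∀ v ∈ A, τ v = s v
      · rw [if_pos H, if_pos (this.1 H)]
      · rw [if_neg H, if_neg (fun H' => H (this.2 H'))]
    have h2 : res A s = res A s' := by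
      funext v
      unfold res
      split_ifs with hv
      · exact h v hv
      · rfl
    simp only [μ, h1, h2]
  refine ⟨μ, fun s => ⟨fun f hf => ?_, ?_⟩, ?_, hcongr, ?_⟩
  · by_cases h : ν (ind A s) = 0
    · rw [hμ0 s f h]; exact hf _
    · rw [hμ1 s f h]
      exact mul_nonneg (inv_nonneg.2 (hν.pos _ (ind0 s)))
        (hν.pos _ (fun τ => mul_nonneg (ind0 s τ) (hf τ)))
  · by_cases h : ν (ind A s) = 0
    · rw [hμ0 s _ h]
    · rw [hμ1 s _ h]
      simp only [mul_one]
      exact inv_mul_cancel₀ h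
  · intro s h₁ h₂ hh
    by_cases h : ν (ind A s) = 0
    · rw [hμ0 s _ h, hμ0 s _ h]
      exact hh _ (fun v hv => by simp [res, hv])
    · rw [hμ1 s _ h, hμ1 s _ h]
      congr 2
      funext τ
      unfold ind
      split_ifs with hτ
      · rw [hh τ hτ]
      · simp
  · intro f
    let P : Finset (V → Bool) := Finset.univ.filter (fun a => res A a = a)
    have hsum : ∀ (F : (V → Bool) → ℝ), F = ∑ a ∈ P, fun τ => ind A a τ * F τ := by
      intro F
      funext τ
      rw [Finset.sum_apply, Finset.sum_eq_single (res A τ)]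
      · have : ind A (res A τ) τ = 1 := by
          unfold ind
          rw [if_pos]
          intro v hv
          simp [res, hv]
        rw [this, one_mul]
      · intro a ha hne
        have ha' : res A a = a := (Finset.mem_filter.1 ha).2
        have : ind A a τ = 0 := by
          unfold ind
          rw [if_neg]
          intro H
          apply hne
          rw [← ha']
          funext v
          unfold res
          split_ifs with hv
          · exact (H v hv).symm
          · rfl
        rw [this, zero_mul]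
      · intro hn
        exfalso
        apply hn
        refine Finset.mem_filter.2 ⟨Finset.mem_univ _, ?_⟩
        funext v
        unfold res
        split_ifs <;> rfl
    rw [hsum (fun s => μ s f), map_sum]
    conv_rhs => rw [hsum f, map_sum]
    refine Finset.sum_congr rfl (fun a _ => ?_)
    have h1 : (fun τ => ind A a τ * μ τ f) = (μ a f) • ind A a := by
      funext τ
      simp only [Pi.smul_apply, smul_eq_mul]
      unfold ind
      split_ifs with hτ
      · rw [hcongr τ a hτ]; ring
      · simp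
    rw [h1, map_smul, smul_eq_mul]
    by_cases h : ν (ind A a) = 0
    · rw [h, mul_zero, ex_null hν _ f (ind0 a) h]
    · rw [hμ1 a f h]
      field_simp

/-- The resampling kernel of a bag `B` given its adhesion `A`. -/
theorem exists_kernel [Fintype V] (ν : ((V → Bool) → ℝ) →ₗ[ℝ] ℝ) (hν : IsEx ν) (A B : Set V) :
    ∃ K : ((V → Bool) → ℝ) →ₗ[ℝ] ((V → Bool) → ℝ),
      (∀ f, (∀ σ, 0 ≤ f σ) → ∀ σ, 0 ≤ K f σ) ∧ (K (fun _ => 1) = fun _ => 1) ∧
      (∀ (U : Set V) f g, U ∩ B ⊆ A → DependsOn g U →
        K (fun σ => f σ * g σ) = fun σ => K f σ * g σ) ∧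
      (∀ (U : Set V) f, DependsOn f (U ∪ B) → DependsOn (K f) (U ∪ A)) ∧
      (∀ f, DependsOn f B → ν (K f) = ν f) := by
  obtain ⟨μ, hμ, hsupp, hcongr, hdis⟩ := exists_cond ν hν A
  let mix : (V → Bool) → (V → Bool) → V → Bool := fun τ s v => if v ∈ B then τ v else s v
  let K : ((V → Bool) → ℝ) →ₗ[ℝ] ((V → Bool) → ℝ) :=
    { toFun := fun f s => μ s (fun τ => f (mix τ s))
      map_add' := fun f g => by
        funext s
        simp only [Pi.add_apply]
        rw [← map_add]; rfl
      map_smul' := fun c f => by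
        funext s
        simp only [Pi.smul_apply, RingHom.id_apply]
        rw [← map_smul]; rfl }
  have hK : ∀ f s, K f s = μ s (fun τ => f (mix τ s)) := fun _ _ => rfl
  refine ⟨K, fun f hf σ => ?_, ?_, ?_, ?_, ?_⟩
  · rw [hK]; exact (hμ σ).pos _ (fun τ => hf _)
  · funext s
    rw [hK]; exact (hμ s).one
  · intro U f g hU hg
    funext s
    rw [hK, hK]
    have h1 : μ s (fun τ => f (mix τ s) * g (mix τ s)) = μ s (g s • fun τ => f (mix τ s)) := by
      refine hsupp s _ _ (fun τ hτ => ?_)
      have : g (mix τ s) = g s := hg (fun v hv => by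
        simp only [mix]
        split_ifs with hB
        · exact hτ v (hU ⟨hv, hB⟩)
        · rfl)
      simp only [Pi.smul_apply, smul_eq_mul, this]; ring
    rw [h1, map_smul, smul_eq_mul, mul_comm]
  · intro U f hf s s' hs
    rw [hK, hK, hcongr s s' (fun v hv => hs v (Or.inr hv))]
    congr 1
    funext τ
    refine hf (fun v hv => ?_)
    simp only [mix]
    split_ifs with hB
    · rfl
    · rcases hv with hv | hv
      · exact hs v (Or.inl hv)
      · exact absurd hv hB
  · intro f hf
    rw [← hdis f]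
    congr 1
    funext s
    rw [hK]
    congr 1
    funext τ
    exact hf (fun v hv => by simp [mix, hv])

variable {ι : Type} {k : ℕ} {d : V → V → ℝ} (T : RTD V k d ι)

theorem sub_dep {t s : ι} (h : T.Sub t s) : s = t ∨ T.dep t < T.dep s := by
  obtain ⟨n, hn⟩ := h
  induction n generalizing s with
  | zero => exact Or.inl hn
  | succ n ih =>
    rw [Function.iterate_succ_apply] at hn
    by_cases hs : s = T.root
    · have : T.par s = s := by rw [hs, T.par_root]
      rw [this] at hn
      exact ih hn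
    · have h1 := T.dep_par s hs
      rcases ih hn with h2 | h2
      · right; rw [← h2]; omega
      · right; omega

theorem sub_of_par {t s : ι} (h : T.Sub t (T.par s)) : T.Sub t s := by
  obtain ⟨n, hn⟩ := h
  exact ⟨n + 1, by rw [Function.iterate_succ_apply]; exact hn⟩

theorem sub_par {t s : ι} (h : T.Sub t s) (hne : s ≠ t) : T.Sub t (T.par s) := by
  obtain ⟨n, hn⟩ := h
  cases n with
  | zero => exact absurd hn hne
  | succ n => exact ⟨n, by rw [Function.iterate_succ_apply] at hn; exact hn⟩

/-- vertices of the bags in `S` -/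
def US (S : Finset ι) : Set V := {v | ∃ s ∈ S, v ∈ T.B s}

/-- vertices of the bags in `S` below `t` -/
def InS (S : Finset ι) (t : ι) : Set V := {v | ∃ s ∈ S, T.Sub t s ∧ v ∈ T.B s}

/-- vertices of the bags in `S` not below `t` -/
def OutS (S : Finset ι) (t : ι) : Set V := {v | ∃ s ∈ S, ¬ T.Sub t s ∧ v ∈ T.B s}

theorem dep_mul {U : Set V} {f g : (V → Bool) → ℝ} (hf : DependsOn f U) (hg : DependsOn g U) :
    DependsOn (fun σ => f σ * g σ) U := fun _ _ h => by
  simp only [hf h, hg h]

theorem glue_aux [Fintype V] (ν : ι → ((V → Bool) → ℝ) →ₗ[ℝ] ℝ) (hν : ∀ t, IsEx (ν t))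
    (hc : ∀ t f, DependsOn f (T.A t) → ν t f = ν (T.par t) f) (S : Finset ι) :
    (∀ s ∈ S, T.par s ∈ S) →
    ∃ E : ((V → Bool) → ℝ) →ₗ[ℝ] ℝ, IsEx E ∧ (∀ t ∈ S, ∀ f, DependsOn f (T.B t) → E f = ν t f) ∧
      ∀ t, t ≠ T.root → ∀ f, DependsOn f (InS T S t) → (∀ σ, 0 ≤ f σ ∧ f σ ≤ 1) →
        ∃ q : (V → Bool) → ℝ, DependsOn q (T.A t ∩ US T S) ∧ (∀ σ, 0 ≤ q σ ∧ q σ ≤ 1) ∧
          ∀ g, DependsOn g (OutS T S t) → E (fun σ => f σ * g σ) = E (fun σ => q σ * g σ) := by
  induction S using Finset.induction_on_max_value T.dep with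
  | empty =>
    intro _
    refine ⟨ν T.root, hν _, fun t ht => absurd ht (Finset.notMem_empty t), ?_⟩
    intro t _ f hf h01
    refine ⟨f, hf.mono ?_, h01, fun g _ => rfl⟩
    rintro v ⟨s, hs, _⟩
    exact absurd hs (Finset.notMem_empty s)
  | insert l S hl hmax ih =>
    intro hcl
    have hnsub : ∀ s ∈ S, ¬ T.Sub l s := by
      intro s hs h
      rcases sub_dep T h with h1 | h1
      · exact hl (h1 ▸ hs)
      · exact absurd (hmax s hs) (by omega)
    have hclS : ∀ s ∈ S, T.par s ∈ S := by
      intro s hs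
      rcases Finset.mem_insert.1 (hcl s (Finset.mem_insert_of_mem hs)) with h | h
      · exact absurd ⟨1, h⟩ (hnsub s hs)
      · exact h
    by_cases hroot : l = T.root
    · have hS : ∀ s, s ∉ S := by
        intro s hs
        have h1 := hmax s hs
        rw [hroot, T.dep_root] at h1
        by_cases h2 : s = T.root
        · exact hl (by rw [hroot, ← h2]; exact hs)
        · have := T.dep_par s h2
          omega
      refine ⟨ν T.root, hν _, fun t ht f _ => ?_, ?_⟩
      · rcases Finset.mem_insert.1 ht with h | h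
        · rw [h, hroot]
        · exact absurd h (hS t)
      · intro t ht f hf h01
        refine ⟨f, hf.mono ?_, h01, fun g _ => rfl⟩
        rintro v ⟨s, hs, hsub, _⟩
        rcases Finset.mem_insert.1 hs with h | h
        · exfalso
          rcases sub_dep T hsub with h1 | h1
          · exact ht (by rw [← h1, h, hroot])
          · rw [h, hroot, T.dep_root] at h1
            omega
        · exact absurd h (hS s)
    obtain ⟨E, hE, hG1, hG2⟩ := ih hclS
    have hpar : T.par l ∈ S := by
      rcases Finset.mem_insert.1 (hcl l (Finset.mem_insert_self l S)) with h | h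
      · have := T.dep_par l hroot
        rw [h] at this
        omega
      · exact h
    have hUB : US T S ∩ T.B l ⊆ T.A l := by
      rintro v ⟨⟨s, hs, hv⟩, hvl⟩
      exact T.run l s (hnsub s hs) ⟨hvl, hv⟩
    have hAp : T.A l ⊆ T.B (T.par l) := T.adh_par l
    have hAU : T.A l ⊆ US T S := fun v hv => ⟨T.par l, hpar, hAp hv⟩
    obtain ⟨K, hKpos, hK1, hKmul, hKdep, hKν⟩ := exists_kernel (ν l) (hν l) (T.A l) (T.B l)
    have hKid : ∀ g, DependsOn g (US T S) → K g = g := by
      intro g hg
      have h1 := hKmul (US T S) (fun _ => 1) g hUB hg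
      simp only [one_mul, hK1] at h1
      exact h1
    have hK01 : ∀ f : (V → Bool) → ℝ, (∀ σ, 0 ≤ f σ ∧ f σ ≤ 1) → ∀ σ, 0 ≤ K f σ ∧ K f σ ≤ 1 := by
      intro f hf σ
      refine ⟨hKpos f (fun σ => (hf σ).1) σ, ?_⟩
      have h1 := hKpos ((fun _ => 1) - f) (fun σ => by simpa using (hf σ).2) σ
      rw [map_sub, hK1] at h1
      simpa using h1
    have hInU : ∀ t, InS T S t ⊆ US T S := fun t v ⟨s, hs, _, hv⟩ => ⟨s, hs, hv⟩
    have hOutU : ∀ t, OutS T S t ⊆ US T S := fun t v ⟨s, hs, _, hv⟩ => ⟨s, hs, hv⟩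
    have hUU : US T S ⊆ US T (insert l S) := fun v ⟨s, hs, hv⟩ =>
      ⟨s, Finset.mem_insert_of_mem hs, hv⟩
    refine ⟨E ∘ₗ K, ⟨fun f hf => hE.pos _ (hKpos f hf), ?_⟩, ?_, ?_⟩
    · rw [LinearMap.comp_apply, hK1]; exact hE.one
    · intro t ht f hf
      rw [LinearMap.comp_apply]
      rcases Finset.mem_insert.1 ht with h | h
      · subst h
        have h1 : DependsOn (K f) (T.A t) := by
          have := hKdep ∅ f (by rw [Set.empty_union]; exact hf)
          rwa [Set.empty_union] at this
        rw [hG1 _ hpar _ (h1.mono hAp), ← hc t _ h1, hKν f hf]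
      · rw [hKid f (hf.mono (fun v hv => ⟨t, h, hv⟩))]
        exact hG1 t h f hf
    · intro t ht f hf h01
      by_cases hsub : T.Sub t l
      · have hOut : OutS T (insert l S) t ⊆ OutS T S t := by
          rintro v ⟨s, hs, hn, hv⟩
          rcases Finset.mem_insert.1 hs with h | h
          · exact absurd (h ▸ hsub) hn
          · exact ⟨s, h, hn, hv⟩
        by_cases hlt : l = t
        · subst hlt
          have hfB : DependsOn f (T.B l) := hf.mono (by
            rintro v ⟨s, hs, hs2, hv⟩
            rcases Finset.mem_insert.1 hs with h | h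
            · exact h ▸ hv
            · exact absurd hs2 (hnsub s h))
          have h1 : DependsOn (K f) (T.A l) := by
            have := hKdep ∅ f (by rw [Set.empty_union]; exact hfB)
            rwa [Set.empty_union] at this
          refine ⟨K f, h1.mono (fun v hv => ⟨hv, hUU (hAU hv)⟩), hK01 f h01, fun g hg => ?_⟩
          have hgU : DependsOn g (US T S) := hg.mono (hOut.trans (hOutU l))
          rw [LinearMap.comp_apply, LinearMap.comp_apply, hKmul _ f g hUB hgU,
            hKid _ (dep_mul (h1.mono hAU) hgU)]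
        · have hsp : T.Sub t (T.par l) := sub_par T hsub hlt
          have h1 : DependsOn (K f) (InS T S t) := by
            refine (hKdep (InS T S t) f (hf.mono ?_)).mono ?_
            · rintro v ⟨s, hs, hs2, hv⟩
              rcases Finset.mem_insert.1 hs with h | h
              · exact Or.inr (h ▸ hv)
              · exact Or.inl ⟨s, h, hs2, hv⟩
            · rintro v (hv | hv)
              · exact hv
              · exact ⟨T.par l, hpar, hsp, hAp hv⟩
          obtain ⟨q, hq, hq01, hqg⟩ := hG2 t ht (K f) h1 (hK01 f h01)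
          refine ⟨q, hq.mono (fun v hv => ⟨hv.1, hUU hv.2⟩), hq01, fun g hg => ?_⟩
          have hgO : DependsOn g (OutS T S t) := hg.mono hOut
          have hgU : DependsOn g (US T S) := hgO.mono (hOutU t)
          rw [LinearMap.comp_apply, LinearMap.comp_apply, hKmul _ f g hUB hgU, hqg g hgO,
            hKid _ (dep_mul (hq.mono (fun v hv => hv.2)) hgU)]
      · have hfI : DependsOn f (InS T S t) := hf.mono (by
          rintro v ⟨s, hs, hs2, hv⟩
          rcases Finset.mem_insert.1 hs with h | h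
          · exact absurd (h ▸ hs2) hsub
          · exact ⟨s, h, hs2, hv⟩)
        obtain ⟨q, hq, hq01, hqg⟩ := hG2 t ht f hfI h01
        refine ⟨q, hq.mono (fun v hv => ⟨hv.1, hUU hv.2⟩), hq01, fun g hg => ?_⟩
        have h1 : DependsOn (K g) (OutS T S t) := by
          refine (hKdep (OutS T S t) g (hg.mono ?_)).mono ?_
          · rintro v ⟨s, hs, hs2, hv⟩
            rcases Finset.mem_insert.1 hs with h | h
            · exact Or.inr (h ▸ hv)
            · exact Or.inl ⟨s, h, hs2, hv⟩
          · rintro v (hv | hv)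
            · exact hv
            · exact ⟨T.par l, hpar, fun h => hsub (sub_of_par T h), hAp hv⟩
        have e1 : (fun σ => f σ * g σ) = fun σ => g σ * f σ := by funext σ; ring
        have e2 : (fun σ => q σ * g σ) = fun σ => g σ * q σ := by funext σ; ring
        rw [LinearMap.comp_apply, LinearMap.comp_apply, e1, e2,
          hKmul _ g f hUB (hfI.mono (hInU t)), hKmul _ g q hUB (hq.mono (fun v hv => hv.2))]
        have h2 := hqg (K g) h1
        have e3 : (fun σ => K g σ * f σ) = fun σ => f σ * K g σ := by funext σ; ring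
        have e4 : (fun σ => K g σ * q σ) = fun σ => q σ * K g σ := by funext σ; ring
        rw [e3, e4, h2]

end Glue

/-- (Glue) Markov gluing. -/
theorem glue : GlueStmt := by
  intro V ι _ _ k d T ν hν hc
  obtain ⟨E, hE, hG1, hG2⟩ := Glue.glue_aux T ν hν hc Finset.univ (fun _ _ => Finset.mem_univ _)
  refine ⟨E, hE, fun t f hf => hG1 t (Finset.mem_univ t) f hf, fun t ht f hf h01 => ?_⟩
  obtain ⟨q, hq, hq01, hqg⟩ := hG2 t ht f
    (hf.mono (by rintro v ⟨s, hs, hv⟩; exact ⟨s, Finset.mem_univ s, hs, hv⟩)) h01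
  exact ⟨q, hq.mono (fun v hv => hv.1), hq01, fun g hg =>
    hqg g (hg.mono (by rintro v ⟨s, hs, hv⟩; exact ⟨s, Finset.mem_univ s, hs, hv⟩))⟩

end Crest.Agent.N206.TW
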