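import Crest.Agent.N206.TW.Build

/-!
# Row 206, S0318: the glued law and the data along a root path (helper61)
-/

set_option autoImplicit false

namespace Crest.Agent.N206.TW

open Finset

theorem IsEx.mono {Ω : Type} {E : (Ω → ℝ) →ₗ[ℝ] ℝ} (h : IsEx E) {f g : Ω → ℝ}
    (hfg : ∀ ω, f ω ≤ g ω) : E f ≤ E g := by
  have := h.pos (g - f) fun ω => sub_nonneg.2 (hfg ω)
  rw [map_sub] at this
  linarith

theorem IsEx.const {Ω : Type} {E : (Ω → ℝ) →ₗ[ℝ] ℝ} (h : IsEx E) (c : ℝ) :
    E (fun _ => c) = c := by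
  have : (fun _ : Ω => c) = c • fun _ => (1 : ℝ) := by funext; simp
  rw [this, map_smul, h.one, smul_eq_mul, mul_one]

theorem dis_nonneg {Ω : Type} (F F' : Ω → Bool) (σ : Ω) : 0 ≤ dis F F' σ := by
  unfold dis; split_ifs <;> norm_num

theorem bf_nonneg {Ω : Type} (F : Ω → Bool) (σ : Ω) : 0 ≤ bf F σ := by
  unfold bf; split_ifs <;> norm_num

theorem bf_le_one {Ω : Type} (F : Ω → Bool) (σ : Ω) : bf F σ ≤ 1 := by
  unfold bf; split_ifs <;> norm_num

theorem pmet_dis {Ω : Type} {E : (Ω → ℝ) →ₗ[ℝ] ℝ} (h : IsEx E) {Z : ℝ} (hZ : 0 ≤ Z) :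
    PMet fun F F' : Ω → Bool => Z * E (dis F F') := by
  refine ⟨fun F => ?_, fun F F' => ?_, fun F F' F'' => ?_⟩
  · have : dis F F = 0 := by funext σ; simp [dis]
    simp [this]
  · have : dis F F' = dis F' F := by funext σ; simp [dis, eq_comm]
    rw [this]
  · rw [← mul_add, ← map_add]
    refine mul_le_mul_of_nonneg_left (h.mono fun σ => ?_) hZ
    simp only [dis, Pi.add_apply]
    cases F σ <;> cases F' σ <;> cases F'' σ <;> simp

variable {V ι : Type} [Fintype V] {k J : ℕ} {d : V → V → ℝ}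

omit [Fintype V] in
theorem dep_dis {A : Set V} {F F' : (V → Bool) → Bool} (h : DependsOn F A) (h' : DependsOn F' A) :
    DependsOn (dis F F') A := fun σ τ e => by simp only [dis, h e, h' e]

omit [Fintype V] in
theorem dep_bf {A : Set V} {F : (V → Bool) → Bool} (h : DependsOn F A) :
    DependsOn (bf F) A := fun σ τ e => by simp only [bf, h e]

omit [Fintype V] in
theorem dep_ev {A : Set V} {v : V} (h : v ∈ A) : DependsOn (ev v) A := fun _ _ e => e v h

theorem St.th_mono (S : St V k J) {G G' : (V → Bool) → ℝ}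
    (h : ∀ σ, G σ - G z0 ≤ G' σ - G' z0) : S.th G ≤ S.th G' := by
  simp only [St.th_apply]
  exact sum_le_sum fun _ _ => sum_le_sum fun _ _ => sum_le_sum fun _ _ => thr_mono _ h

theorem St.th_dis_le {o : V} {S : St V k J} (hS : ∀ b φ, Good d o (S.m b φ) (S.w b φ)) (x y : V) :
    S.th (dis (ev x) (ev y)) ≤ (J * Fintype.card (Ft k) : ℕ) * d x y := by
  simp only [St.th_apply, thr_dis]
  refine (sum_le_sum fun b _ => sum_le_sum fun φ _ => (hS b φ).sum_le x y).trans (le_of_eq ?_)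
  simp only [sum_const, card_univ, Fintype.card_fin, nsmul_eq_mul]
  push_cast; ring

theorem St.th_ev_le {o : V} {S : St V k J} (hS : ∀ b φ, Good d o (S.m b φ) (S.w b φ)) (x : V) :
    S.th (bf (ev x)) ≤ (J * Fintype.card (Ft k) : ℕ) * d x o := by
  refine le_trans (le_of_eq ?_) (St.th_dis_le hS x o)
  simp only [St.th_apply, thr_dis, thr_ev, (hS _ _).m_o, sub_zero]

/-- The states along the tree together with the glued law. -/
structure World (T : RTD V k d ι) (J : ℕ) (W Z : ℝ) where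
  /-- the states -/
  S : ι → St V k J
  /-- the glued law -/
  E : ((V → Bool) → ℝ) →ₗ[ℝ] ℝ
  hd : PMet d
  inv : ∀ t, Inv T t (S t)
  step : ∀ t, t ≠ T.root → Step T W t (S (T.par t)) (S t)
  ex : IsEx E
  Z_pos : 0 < Z
  marg : ∀ t G, DependsOn G (T.B t) → G z0 = 0 → Z * E G = (S t).th G
  markov : ∀ t, t ≠ T.root → ∀ f, DependsOn f (T.In t) → (∀ σ, 0 ≤ f σ ∧ f σ ≤ 1) →
    ∃ q : (V → Bool) → ℝ, DependsOn q (T.A t) ∧ (∀ σ, 0 ≤ q σ ∧ q σ ≤ 1) ∧
      ∀ g, DependsOn g (T.Out t) → E (fun σ => f σ * g σ) = E (fun σ => q σ * g σ)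
  small : ∑ v, E (bf (ev v)) ≤ 1 / 10

theorem exists_world [Fintype ι] (glue : GlueStmt) (hd : PMet d) (T : RTD V k d ι) (s : ℕ) :
    ∃ Z, Nonempty (World T (nblk k s) (2 ^ s) Z) := by
  obtain ⟨S, hS, hS'⟩ := build hd T s
  set C : ℝ := ((nblk k s * Fintype.card (Ft k) : ℕ) : ℝ) with hC
  have hR : 0 ≤ C * ∑ v, d v T.o :=
    mul_nonneg (Nat.cast_nonneg _) (sum_nonneg fun v _ => hd.nonneg _ _)
  set Z : ℝ := 10 * (C * ∑ v, d v T.o) + 1 with hZ
  have hZ0 : 0 < Z := by linarith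
  let ν : ι → ((V → Bool) → ℝ) →ₗ[ℝ] ℝ := fun t =>
    LinearMap.proj (R := ℝ) (φ := fun _ => ℝ) z0 + Z⁻¹ • (S t).th
  have hν : ∀ t G, ν t G = G z0 + Z⁻¹ * (S t).th G := fun _ _ => rfl
  have h1 : ∀ t, IsEx (ν t) := fun t => by
    refine ⟨fun G hG => ?_, by simp [hν, St.th_apply, thr_const]⟩
    have h2 : (S t).th (-(G z0) • ∑ v, bf (ev v)) ≤ (S t).th G := by
      refine St.th_mono _ fun σ => ?_
      have e0 : (∑ v : V, bf (ev v)) z0 = 0 := by simp [Finset.sum_apply, bf, ev, z0]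
      simp only [Pi.smul_apply, smul_eq_mul, e0, mul_zero, sub_zero]
      by_cases h : σ = z0
      · rw [h, e0]; simp
      · obtain ⟨v, hv⟩ := Function.ne_iff.1 h
        have e1 : 1 ≤ (∑ v : V, bf (ev v)) σ := by
          rw [Finset.sum_apply]
          refine le_trans ?_ (single_le_sum (fun v _ => bf_nonneg (ev v) σ) (mem_univ v))
          have : σ v = true := by simpa [z0] using hv
          simp [bf, ev, this]
        nlinarith [hG σ, hG z0]
    rw [map_smul, map_sum, smul_eq_mul] at h2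
    have h3 : ∑ v, (S t).th (bf (ev v)) ≤ Z := by
      refine (sum_le_sum fun v _ => St.th_ev_le (hS t).good v).trans ?_
      rw [← mul_sum]
      linarith
    have h4 : -(G z0) * Z ≤ (S t).th G := by nlinarith [hG z0]
    have h5 := mul_le_mul_of_nonneg_left h4 (inv_nonneg.2 hZ0.le)
    rw [mul_comm (-(G z0)), ← mul_assoc, inv_mul_cancel₀ hZ0.ne'] at h5
    rw [hν]
    linarith
  obtain ⟨E, e1, e2, e3⟩ := glue V ι k d T ν h1 fun t f hf => by
    by_cases ht : t = T.root
    · rw [ht, T.par_root]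
    · rw [hν, hν, (hS' t ht).th f hf]
  have e4 : ∀ t G, DependsOn G (T.B t) → G z0 = 0 → Z * E G = (S t).th G := fun t G hG h0 => by
    rw [e2 t G hG, hν, h0, zero_add, ← mul_assoc, mul_inv_cancel₀ hZ0.ne', one_mul]
  refine ⟨Z, ⟨⟨S, E, hd, hS, hS', e1, hZ0, e4, e3, ?_⟩⟩⟩
  have h2 : Z * ∑ v, E (bf (ev v)) ≤ C * ∑ v, d v T.o := by
    rw [mul_sum, mul_sum]
    refine sum_le_sum fun v _ => ?_
    obtain ⟨t, ht⟩ := T.cover v
    rw [e4 t _ (dep_bf (dep_ev ht)) (by simp [bf, ev, z0])]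
    exact St.th_ev_le (hS t).good v
  refine le_of_mul_le_mul_left (h2.trans ?_) hZ0
  linarith

/-- Boolean functions of the pattern on `A` which vanish on the trivial pattern -/
def Fn (A : Set V) : Set ((V → Bool) → Bool) := {F | DependsOn F A ∧ F z0 = false}

omit [Fintype V] in
theorem Fn_mono {A B : Set V} (h : A ⊆ B) : Fn A ⊆ Fn B := fun _ hF => ⟨hF.1.mono h, hF.2⟩

namespace World

variable {T : RTD V k d ι} {W Z : ℝ} (X : World T J W Z)

/-- the disagreement metric -/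
def ρ (F F' : (V → Bool) → Bool) : ℝ := Z * X.E (dis F F')

theorem pmet : PMet X.ρ := pmet_dis X.ex X.Z_pos.le

theorem ρ_eq {t : ι} {F F' : (V → Bool) → Bool} (hF : F ∈ Fn (T.B t)) (hF' : F' ∈ Fn (T.B t)) :
    X.ρ F F' = (X.S t).th (dis F F') :=
  X.marg t _ (dep_dis hF.1 hF'.1) (by simp [dis, hF.2, hF'.2])

theorem up (x y : V) : X.ρ (ev x) (ev y) ≤ (J * Fintype.card (Ft k) : ℕ) * d x y := by
  refine T.lip (fun x y => X.ρ (ev x) (ev y)) _ (Nat.cast_nonneg _)
    ⟨fun _ => X.pmet.self _, fun _ _ => X.pmet.comm _ _, fun _ _ _ => X.pmet.tri _ _ _⟩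
    (fun t x hx y hy => ?_) x y
  rw [X.ρ_eq (t := t) ⟨dep_ev hx, rfl⟩ ⟨dep_ev hy, rfl⟩]
  exact St.th_dis_le (X.inv t).good x y

theorem step_anc {n : ι} {l : ℕ} (hl : l < T.dep n) :
    Step T W (T.anc n (l + 1)) (X.S (T.anc n l)) (X.S (T.anc n (l + 1))) := by
  have := X.step _ (T.anc_ne_root (t := n) (Nat.succ_pos l) hl)
  rwa [T.par_anc hl] at this

theorem frozen {n : ι} {i m : ℕ} (hm : m ≤ T.dep n) (hi : i ∈ (X.S (T.anc n m)).K) :
    (X.S (T.anc n m)).m ((X.S (T.anc n m)).blk i) =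
      (X.S (T.anc n i)).m ((X.S (T.anc n i)).blk i) := by
  induction m with
  | zero =>
    have := (X.inv _).le i hi
    rw [T.dep_anc hm] at this
    rw [show i = 0 by omega]
  | succ m ih =>
    rcases (X.step_anc hm).old i hi with e | ⟨e, e'⟩
    · rw [T.dep_anc hm] at e
      rw [e]
    · rw [e', ih (by omega) e]

/-- the data along the path from the root to `n` -/
noncomputable def path (n : ι) : PathSys V ((V → Bool) → Bool) k d (beta k)
    (J * Fintype.card (Ft k) : ℕ) W (T.dep n) where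
  α j := T.adh (T.anc n j)
  γ j := T.bag (T.anc n j)
  ρ := X.ρ
  ev := ev
  FA j := Fn (T.A (T.anc n j))
  FB j := Fn (T.B (T.anc n j))
  K j := (X.S (T.anc n j)).K
  M j := Set.range (scales d (X.S (T.anc n (j - 1))).th (T.adh (T.anc n j)))
  hd := X.hd
  hρ := X.pmet
  up := X.up
  root c c' := by rw [T.anc_zero, T.adh_root, T.adh_root]
  adh_bag j _ := T.adh_bag _
  adh_par j hj := by rw [← T.par_anc hj]; exact T.adh_par _
  sep i l m hi hl hm z hz a ha := by
    cases i with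
    | zero =>
      rw [T.anc_zero] at ha
      obtain ⟨c, rfl⟩ := ha
      exact ⟨T.o, T.o_mem _, by rw [T.adh_root, X.hd.self, add_zero]⟩
    | succ i =>
      refine T.sep _ _ (T.anc n i) (T.sub_anc hl hm) (fun h => ?_) z hz a ?_
      · have := (RTD.Sub.spec h).1
        rw [T.dep_anc (by omega), T.dep_anc (by omega)] at this
        omega
      · rw [← T.par_anc (by omega)]; exact T.adh_par _ ha
  ev_FB j _ v hv := ⟨dep_ev hv, rfl⟩
  FA_FB j _ := Fn_mono (T.adh_bag _)
  FA_par j hj := Fn_mono (by rw [← T.par_anc hj]; exact T.adh_par _)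
  K_zero := by
    have h := X.inv (T.anc n 0)
    have e := T.dep_anc (t := n) (Nat.zero_le _)
    ext i
    refine ⟨fun hi => ?_, fun hi => ?_⟩
    · have := h.le i hi
      simp only [mem_singleton]; omega
    · rw [mem_singleton.1 hi]
      have := h.self
      rwa [e] at this
  K_new l hl := by
    have := (X.inv (T.anc n (l + 1))).self
    rwa [T.dep_anc hl] at this
  K_sub l hl i hi := by
    have := (X.step_anc hl).old i hi
    rw [T.dep_anc hl] at this
    exact this.imp id fun h => h.1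
  K_drop l hl j hj := by
    refine ((X.step_anc hl).drop j hj).imp id ?_
    rintro ⟨i, hi, i', hi', h1, h2, h3, h4, h5⟩
    have h6 := (X.inv _).le i' hi'
    rw [T.dep_anc hl.le] at h6
    rw [T.anc_anc (by omega) hl, T.anc_anc (by omega) hl] at h5
    exact ⟨i, hi, i', hi', h1, h2, h3, h4, h5⟩
  lam i hi φ := by
    obtain ⟨c, hc⟩ := (X.inv (T.anc n i)).new φ
    rw [T.dep_anc hi] at hc
    set μ := (X.S (T.anc n i)).m ((X.S (T.anc n i)).blk i) φ with hμ
    refine ⟨fun F => lam (μ (some c)) (bf F) - lam (μ none) (bf F), fun F hF => ?_, fun v => ?_,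
      fun m hm hK F hF F' hF' => ?_⟩
    · refine sub_eq_zero.2 (lam_congr_dep (dep_bf hF.1) fun v hv => ?_)
      have := hc v
      rw [feat_eq_zero X.hd _ _ φ hv, mul_zero] at this
      linarith
    · simp only [lam_ev, hc]
    · have h1 := lam_sub_le (μ (some c)) (hF.2.trans hF'.2.symm)
      have h2 := lam_sub_le (μ none) (hF'.2.trans hF.2.symm)
      have h3 : dis F' F = dis F F' := by funext σ; simp [dis, eq_comm]
      have h0 : ∀ g : V → ℝ, 0 ≤ thr g (dis F F') := fun g => thr_nonneg g fun σ => by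
        simpa [dis, hF.2, hF'.2] using dis_nonneg F F' σ
      have h4 : thr (μ (some c)) (dis F F') + thr (μ none) (dis F F') ≤
          ∑ p, thr (μ p) (dis F F') := by
        rw [Fintype.sum_option, add_comm]
        exact add_le_add le_rfl
          (single_le_sum (f := fun c => thr (μ (some c)) (dis F F')) (fun _ _ => h0 _) (mem_univ c))
      have h5 : ∑ p, thr (μ p) (dis F F') ≤ (X.S (T.anc n m)).th (dis F F') := by
        rw [St.th_apply, hμ, ← X.frozen hm hK]
        refine le_trans ?_ (single_le_sum (f := fun b => ∑ φ, ∑ p,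
          thr ((X.S (T.anc n m)).m b φ p) (dis F F'))
          (fun _ _ => sum_nonneg fun _ _ => sum_nonneg fun _ _ => h0 _)
          (mem_univ ((X.S (T.anc n m)).blk i)))
        exact single_le_sum (f := fun φ => ∑ p,
          thr ((X.S (T.anc n m)).m ((X.S (T.anc n m)).blk i) φ p) (dis F F'))
          (fun _ _ => sum_nonneg fun _ _ => h0 _) (mem_univ φ)
      rw [h3] at h2
      rw [X.ρ_eq hF hF']
      linarith
  M_d l _ _ := by
    rintro _ ⟨c, rfl⟩ _ ⟨c', rfl⟩
    exact ⟨.inl (c, c'), rfl⟩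
  M_ρ l hl h0 F hF := by
    classical
    rintro _ ⟨c, rfl⟩
    obtain ⟨l, rfl⟩ : ∃ l', l = l' + 1 := ⟨l - 1, by omega⟩
    have hsub : T.A (T.anc n (l + 1)) ⊆ T.B (T.anc n l) := by
      rw [← T.par_anc hl]; exact T.adh_par _
    set α := T.adh (T.anc n (l + 1)) with hα
    refine ⟨.inr (c, fun τ => F fun v => if h : ∃ c, α c = v then τ h.choose else false), ?_⟩
    rw [X.ρ_eq (Fn_mono hsub hF) ⟨dep_ev (hsub ⟨c, rfl⟩), rfl⟩]
    simp only [scales, Nat.add_sub_cancel]
    congr 2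
    funext σ
    refine hF.1 fun v hv => ?_
    have hv' : ∃ c, α c = v := hv
    rw [dif_pos hv', Function.comp_apply, hv'.choose_spec]

end World

end Crest.Agent.N206.TW
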