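import Crest.Agent.N206.TW.Path

/-!
# Row 206, S0318: the lower bound along a root path (helper61)
-/

set_option autoImplicit false

namespace Crest.Agent.N206.TW

open Set

variable {V Fn : Type} {k : ℕ} {d : V → V → ℝ} {β C W : ℝ} {N : ℕ}

/-- A sequence of Boolean functions of the adhesions `j₀ ≤ j ≤ N`, ending at the vertex `y`, with
the nearest vertices `a j`. -/
structure Trail (P : PathSys V Fn k d β C W N) (j₀ : ℕ) (y : V) (F : ℕ → Fn) (a : ℕ → V) :
    Prop where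
  pos : 0 < j₀
  hy : y ∈ range (P.γ N)
  hF : ∀ j, j₀ ≤ j → j ≤ N → F j ∈ P.FA j
  ha : ∀ j, j₀ ≤ j → j ≤ N → a j ∈ range (P.α j)
  hmin : ∀ j, j₀ ≤ j → j ≤ N → ∀ u ∈ range (P.α j), P.ρ (F j) (P.ev (a j)) ≤ P.ρ (F j) (P.ev u)
  F_last : F (N + 1) = P.ev y
  a_last : a (N + 1) = y

namespace Trail

variable {P : PathSys V Fn k d β C W N} {j₀ : ℕ} {y : V} {F : ℕ → Fn} {a : ℕ → V}

/-- cost between the times `i` and `l` -/
noncomputable def G (P : PathSys V Fn k d β C W N) (F : ℕ → Fn) (i l : ℕ) : ℝ :=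
  ∑ m ∈ Finset.Ico i l, P.ρ (F m) (F (m + 1))

theorem G_nonneg (i l : ℕ) : 0 ≤ G P F i l := Finset.sum_nonneg fun _ _ => P.hρ.nonneg _ _

theorem G_add {i l m : ℕ} (h : i ≤ l) (h' : l ≤ m) : G P F i l + G P F l m = G P F i m :=
  Finset.sum_Ico_consecutive _ h h'

theorem G_succ {i l : ℕ} (h : i ≤ l) : G P F i (l + 1) = G P F i l + P.ρ (F l) (F (l + 1)) :=
  Finset.sum_Ico_succ_top h _

theorem rho_le_G {i l : ℕ} (h : i ≤ l) : P.ρ (F i) (F l) ≤ G P F i l := by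
  induction l, h using Nat.le_induction with
  | base => simp [G, P.hρ.self]
  | succ l hl ih => rw [G_succ hl]; linarith [P.hρ.tri (F i) (F l) (F (l + 1))]

theorem F_next (T : Trail P j₀ y F a) {m : ℕ} (h : j₀ ≤ m) (h' : m ≤ N) :
    F (m + 1) ∈ P.FB m := by
  rcases h'.eq_or_lt with e | e
  · subst e; rw [T.F_last]; exact P.ev_FB _ le_rfl _ T.hy
  · exact P.FA_par m e (T.hF _ (by omega) e)

theorem a_next (T : Trail P j₀ y F a) {m : ℕ} (h : j₀ ≤ m) (h' : m ≤ N) :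
    a (m + 1) ∈ range (P.γ m) := by
  rcases h'.eq_or_lt with e | e
  · subst e; rw [T.a_last]; exact T.hy
  · exact P.adh_par m e (T.ha _ (by omega) e)

/-- the feature inequality -/
theorem feature (T : Trail P j₀ y F a) {i t : ℕ} (h : j₀ ≤ i) (ht : t ≤ N) (hi : i ∈ P.K t) :
    β * dA d (P.α i) (a (t + 1)) ≤ G P F i (t + 1) + P.ρ (F (t + 1)) (P.ev (a (t + 1))) := by
  have hit := P.K_le ht i hi
  obtain ⟨Λ, h0, h1, h2⟩ := P.lam i (by omega) none
  have h3 : ∀ m, i ≤ m → m ≤ t + 1 → Λ (F m) ≤ G P F i m := by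
    intro m hm
    induction m, hm using Nat.le_induction with
    | base => intro _; simp [G, h0 _ (T.hF i h (by omega))]
    | succ m hm ih =>
      intro hm'
      have h4 := h2 m (by omega) (P.K_anti hm (by omega) ht hi) _ (T.F_next (by omega) (by omega))
        _ (P.FA_FB m (by omega) (T.hF m (by omega) (by omega)))
      rw [G_succ hm, P.hρ.comm]
      linarith [ih (by omega)]
  have h4 := h2 t ht hi _ (P.ev_FB t ht _ (T.a_next (by omega) ht)) _ (T.F_next (by omega) ht)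
  rw [h1, P.hρ.comm] at h4
  have h5 := h3 (t + 1) (by omega) le_rfl
  simp only [feat] at h4
  linarith

/-- the feature inequality through the sandwich lemma -/
theorem sandwich (T : Trail P j₀ y F a) (hβ : 0 ≤ β) (hW : 0 < W) {j t : ℕ} (h : j₀ ≤ j)
    (hj : j ≤ t) (ht : t ≤ N) {lo hi : ℝ} (hlo : 0 ≤ lo) (hhi : 0 ≤ hi)
    (hq : ∀ m, j < m → m ≤ t → lo < P.ρ (F m) (P.ev (a m)) ∧ P.ρ (F m) (P.ev (a m)) < hi) :
    β * min (dA d (P.α j) (a (t + 1))) (lo * W) ≤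
      2 * (G P F j (t + 1) + P.ρ (F (t + 1)) (P.ev (a (t + 1)))) + β * (hi / W) := by
  have h0 := G_nonneg (P := P) (F := F) j (t + 1)
  have h1 := P.hρ.nonneg (F (t + 1)) (P.ev (a (t + 1)))
  have h2 : 0 ≤ β * (hi / W) := by positivity
  rcases P.sand ht hj with e | ⟨i, hi', l, e1, e2, e3, e4⟩
  · have h3 := T.feature h ht e
    have h4 := mul_le_mul_of_nonneg_left (min_le_left (dA d (P.α j) (a (t + 1))) (lo * W)) hβ
    linarith
  · obtain ⟨q1, q2⟩ := hq l (by omega) e3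
    have h3 := e4 _ (P.M_ρ l (by omega) (by omega) _ (T.hF l (by omega) (by omega)) _
      (T.ha l (by omega) (by omega))) (hlo.trans_lt q1) _ (T.a_next (by omega) ht)
    have h4 := T.feature (i := i) (by omega) ht hi'
    have h5 := G_add (P := P) (F := F) e1.le (show i ≤ t + 1 by omega)
    have h6 := G_nonneg (P := P) (F := F) j i
    have h7 : min (dA d (P.α j) (a (t + 1))) (lo * W) ≤
        2 * dA d (P.α i) (a (t + 1)) + hi / W :=
      ((min_le_min le_rfl (mul_le_mul_of_nonneg_right q1.le hW.le)).trans h3).trans (by gcongr)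
    have h8 := mul_le_mul_of_nonneg_left h7 hβ
    linarith

/-- comparing the nearest vertices at two times -/
theorem dist_le (T : Trail P j₀ y F a) (hβ : 0 ≤ β) (hW : 24 ≤ W) {j l : ℕ} (h : j₀ ≤ j)
    (hj : j ≤ N) (hl : j ≤ l) : β / 40 * d (a j) (a l) ≤ (β / 40 + C) * dA d (P.α j) (a l) +
      P.ρ (F j) (P.ev (a j)) + G P F j l + P.ρ (F l) (P.ev (a l)) := by
  obtain ⟨u, hu, e⟩ := exists_dA d (P.α j) (a l)
  have h1 := P.r1 hβ hW hj (P.adh_bag j hj (T.ha j h hj)) (P.adh_bag j hj hu)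
  have h2 := P.hρ.tri (P.ev (a j)) (F j) (P.ev u)
  have h3 := P.hρ.tri (F j) (F l) (P.ev u)
  have h4 := P.hρ.tri (F l) (P.ev (a l)) (P.ev u)
  have h5 := P.up (a l) u
  have h6 := rho_le_G (P := P) (F := F) hl
  have h7 := P.hd.tri (a j) u (a l)
  rw [P.hd.comm u] at h7
  rw [P.hρ.comm _ (F j)] at h2
  have h8 := mul_le_mul_of_nonneg_left h7 (show 0 ≤ β / 40 by positivity)
  rw [e]
  linarith

theorem step_le (T : Trail P j₀ y F a) (hβ : 0 ≤ β) (hW : 24 ≤ W) {t : ℕ} (h : j₀ ≤ t)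
    (ht : t ≤ N) : β / 40 * d (a t) (a (t + 1)) ≤ P.ρ (F t) (P.ev (a t)) +
      P.ρ (F t) (F (t + 1)) + P.ρ (F (t + 1)) (P.ev (a (t + 1))) := by
  have h1 := P.r1 hβ hW ht (P.adh_bag t ht (T.ha t h ht)) (T.a_next h ht)
  have h2 := P.hρ.tri (P.ev (a t)) (F t) (P.ev (a (t + 1)))
  have h3 := P.hρ.tri (F t) (F (t + 1)) (P.ev (a (t + 1)))
  rw [P.hρ.comm _ (F t)] at h2
  linarith

/-- At the first time when the error rises, drops, or the trail has travelled, the cost is large. -/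
theorem stop (T : Trail P j₀ y F a) {M K : ℝ} (hβ : 0 < β) (hβ1 : β ≤ 1) (hC : 0 ≤ C)
    (hM : β * M = 4 * (β + 2 * C)) (hK : 2 * M * K = 1) (hW1 : 4 * C * M ≤ W)
    (hW2 : 4 * M * (M + 2) ≤ β * W) {j t : ℕ} (h : j₀ ≤ j) (hj : j ≤ t) (ht : t ≤ N) {e : ℝ}
    (he : e = P.ρ (F j) (P.ev (a j))) (he0 : 0 < e)
    (hq : ∀ m, j < m → m ≤ t → e / M < P.ρ (F m) (P.ev (a m)) ∧ P.ρ (F m) (P.ev (a m)) < M * e)
    (hs : ¬ (e / M < P.ρ (F (t + 1)) (P.ev (a (t + 1))) ∧
        P.ρ (F (t + 1)) (P.ev (a (t + 1))) < M * e) ∨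
      e / M * W / 2 ≤ dA d (P.α j) (a (t + 1))) :
    4 * K * e ≤ G P F j (t + 1) + K * P.ρ (F (t + 1)) (P.ev (a (t + 1))) := by
  have hM4 : 4 ≤ M := by nlinarith
  have hM0 : 0 < M := by linarith
  have hW0 : 0 < W := by nlinarith
  have hWM : 4 * M * (M + 2) ≤ W := by nlinarith
  have hK0 : 0 < K := by nlinarith
  have hS := T.sandwich hβ.le hW0 h hj ht (lo := e / M) (hi := M * e) (by positivity)
    (by positivity) hq
  have hG := G_nonneg (P := P) (F := F) j (t + 1)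
  have hE := P.hρ.nonneg (F (t + 1)) (P.ev (a (t + 1)))
  obtain ⟨u, hu, eu⟩ := exists_dA d (P.α j) (a (t + 1))
  have h1 := T.hmin j h (by omega) u hu
  have h2 := P.hρ.tri (F j) (F (t + 1)) (P.ev u)
  have h3 := P.hρ.tri (F (t + 1)) (P.ev (a (t + 1))) (P.ev u)
  have h4 := P.up (a (t + 1)) u
  have h5 := rho_le_G (P := P) (F := F) (show j ≤ t + 1 by omega)
  rw [← eu] at h4
  set g := G P F j (t + 1)
  set e' := P.ρ (F (t + 1)) (P.ev (a (t + 1)))
  set D := dA d (P.α j) (a (t + 1))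
  obtain ⟨x, hx⟩ : ∃ x, x = e / M := ⟨_, rfl⟩
  have hex : e = M * x := by rw [hx]; field_simp
  have hx0 : 0 < x := by rw [hx]; positivity
  have hKe : 4 * K * e = 2 * x := by rw [hex]; linear_combination 2 * x * hK
  obtain ⟨z, hz⟩ : ∃ z, z = M * e / W := ⟨_, rfl⟩
  have hzW : z * W = M * e := by rw [hz]; field_simp
  have hz0 : 0 ≤ z := by rw [hz]; positivity
  rw [← hx] at hS hs
  rw [← hz] at hS
  rw [hKe]
  by_cases c1 : M * e ≤ e'
  · have : K * (M * e) ≤ K * e' := mul_le_mul_of_nonneg_left c1 hK0.le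
    nlinarith
  push Not at c1
  have hKe' : 0 ≤ K * e' := by positivity
  have hze : z ≤ e := by
    by_contra hn
    push Not at hn
    nlinarith
  by_cases c2 : x * W / 2 ≤ D
  · have h6 : x * W / 2 ≤ min D (x * W) := le_min c2 (by nlinarith)
    have h7 := mul_le_mul_of_nonneg_left h6 hβ.le
    have h8 : 4 * M * (M + 2) * x ≤ β * W * x := mul_le_mul_of_nonneg_right hW2 hx0.le
    have h9 : β * z ≤ z := by nlinarith
    nlinarith
  push Not at c2
  have c3 : e' ≤ x := by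
    rcases hs with hs | hs
    · by_contra hn
      exact hs ⟨not_le.1 hn, c1⟩
    · linarith
  rw [min_eq_left (by nlinarith)] at hS
  have h6 : C * z ≤ e / 4 := by
    by_contra hn
    push Not at hn
    nlinarith
  have h7 : β * e ≤ β * (g + e') + C * (β * D) := by nlinarith
  have h8 : C * (β * D) ≤ C * (2 * (g + e') + β * z) := mul_le_mul_of_nonneg_left hS hC
  have h9 : β * (C * z) ≤ β * (e / 4) := mul_le_mul_of_nonneg_left h6 hβ.le
  have h10 : β * (3 * M * x) ≤ β * (M * (g + x)) := by nlinarith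
  have h11 : 3 * M * x ≤ M * (g + x) := le_of_mul_le_mul_left h10 hβ
  nlinarith

/-- (P') The cost of a trail dominates the distance travelled and the initial error. -/
theorem main (T : Trail P j₀ y F a) {M K κ : ℝ} (hβ : 0 < β) (hβ1 : β ≤ 1) (hC : 0 ≤ C)
    (hM : β * M = 4 * (β + 2 * C)) (hK : 2 * M * K = 1) (hW1 : 4 * C * M ≤ W)
    (hW2 : 4 * M * (M + 2) ≤ β * W) (hκ : 0 ≤ κ) (hκ1 : 4 * κ ≤ K)
    (hκ2 : κ * ((β / 40 + C) * W + 1 + 2 * M) ≤ K) {j : ℕ} (h : j₀ ≤ j) (hj : j ≤ N + 1) :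
    κ * (β / 40 * d y (a j)) + K * P.ρ (F j) (P.ev (a j)) ≤ G P F j (N + 1) := by
  classical
  have hM4 : 4 ≤ M := by nlinarith
  have hW24 : 24 ≤ W := by nlinarith
  have hK0 : 0 < K := by nlinarith
  have hK1 : K ≤ 1 := by nlinarith
  induction hn : N + 1 - j using Nat.strong_induction_on generalizing j with
  | _ n ih =>
  rcases hj.eq_or_lt with e | hj'
  · subst e
    simp [G, T.F_last, T.a_last, P.hd.self, P.hρ.self]
  have hjN : j ≤ N := by omega
  have key : ∀ t, j ≤ t → t ≤ N → κ * (β / 40 * d (a j) (a (t + 1))) +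
      K * P.ρ (F j) (P.ev (a j)) ≤ G P F j (t + 1) + K * P.ρ (F (t + 1)) (P.ev (a (t + 1))) →
      κ * (β / 40 * d y (a j)) + K * P.ρ (F j) (P.ev (a j)) ≤ G P F j (N + 1) := by
    intro t h1 h2 h3
    have h4 := ih (N + 1 - (t + 1)) (by omega) (j := t + 1) (by omega) (by omega) rfl
    have h5 := G_add (P := P) (F := F) (show j ≤ t + 1 by omega) (show t + 1 ≤ N + 1 by omega)
    have h6 := P.hd.tri y (a (t + 1)) (a j)
    rw [P.hd.comm (a (t + 1))] at h6
    have h7 := mul_le_mul_of_nonneg_left h6 (show 0 ≤ κ * (β / 40) by positivity)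
    linarith
  obtain ⟨e, he⟩ : ∃ e, e = P.ρ (F j) (P.ev (a j)) := ⟨_, rfl⟩
  rcases (he ▸ P.hρ.nonneg (F j) (P.ev (a j)) : 0 ≤ e).eq_or_lt with he0 | he0
  · refine key j le_rfl hjN ?_
    have h1 := mul_le_mul_of_nonneg_left (T.step_le hβ.le hW24 h hjN) hκ
    have h2 := P.hρ.nonneg (F j) (F (j + 1))
    have h3 := P.hρ.nonneg (F (j + 1)) (P.ev (a (j + 1)))
    rw [← he, ← he0] at h1 ⊢
    rw [G_succ le_rfl, G, Finset.Ico_self, Finset.sum_empty]
    nlinarith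
  have hex : ∃ t, j ≤ t ∧ (¬ (e / M < P.ρ (F (t + 1)) (P.ev (a (t + 1))) ∧
      P.ρ (F (t + 1)) (P.ev (a (t + 1))) < M * e) ∨ e / M * W / 2 ≤ dA d (P.α j) (a (t + 1))) := by
    refine ⟨N, hjN, Or.inl fun hh => ?_⟩
    rw [T.F_last, T.a_last, P.hρ.self] at hh
    exact absurd hh.1 (not_lt.2 (by positivity))
  have hN : Nat.find hex ≤ N := Nat.find_min' hex ⟨hjN, Or.inl fun hh => by
    rw [T.F_last, T.a_last, P.hρ.self] at hh
    exact absurd hh.1 (not_lt.2 (by positivity))⟩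
  obtain ⟨ht, hs⟩ := Nat.find_spec hex
  have hq : ∀ m, j < m → m ≤ Nat.find hex → (e / M < P.ρ (F m) (P.ev (a m)) ∧
      P.ρ (F m) (P.ev (a m)) < M * e) ∧ dA d (P.α j) (a m) < e / M * W / 2 := by
    intro m h1 h2
    obtain ⟨m, rfl⟩ : ∃ m', m = m' + 1 := ⟨m - 1, by omega⟩
    have := Nat.find_min hex (show m < Nat.find hex by omega)
    push Not at this
    exact this (by omega)
  generalize Nat.find hex = t at hN ht hs hq
  refine key t ht hN ?_
  have h1 := T.stop hβ hβ1 hC hM hK hW1 hW2 h ht hN he he0 (fun m h1 h2 => (hq m h1 h2).1) hs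
  have h2 : P.ρ (F t) (P.ev (a t)) ≤ M * e ∧ dA d (P.α j) (a t) ≤ W * e := by
    rcases ht.eq_or_lt with e' | e'
    · subst e'
      rw [dA_eq_zero P.hd (T.ha j h hjN), ← he]
      exact ⟨by nlinarith, by positivity⟩
    · obtain ⟨⟨-, q1⟩, q2⟩ := hq t e' le_rfl
      refine ⟨q1.le, q2.le.trans ?_⟩
      have : e / M ≤ e := div_le_self he0.le (by linarith)
      nlinarith
  have h3 := T.dist_le hβ.le hW24 h hjN ht
  have h4 := T.step_le hβ.le hW24 (h.trans ht) hN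
  have h5 := P.hd.tri (a j) (a t) (a (t + 1))
  have h6 := mul_le_mul_of_nonneg_left h5 (show 0 ≤ β / 40 by positivity)
  have h7 := mul_le_mul_of_nonneg_left h2.2 (show 0 ≤ β / 40 + C by positivity)
  have h8 := G_succ (P := P) (F := F) ht
  have h9 := G_nonneg (P := P) (F := F) j (t + 1)
  have h10 := P.hρ.nonneg (F (t + 1)) (P.ev (a (t + 1)))
  rw [← he] at h3 ⊢
  have h11 : β / 40 * d (a j) (a (t + 1)) ≤ ((β / 40 + C) * W + 1 + 2 * M) * e +
      G P F j (t + 1) + P.ρ (F (t + 1)) (P.ev (a (t + 1))) := by linarith [h2.1]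
  have h12 := mul_le_mul_of_nonneg_left h11 hκ
  have h13 := mul_le_mul_of_nonneg_right hκ2 he0.le
  have h14 := mul_le_mul_of_nonneg_right hκ1 h9
  have h15 := mul_le_mul_of_nonneg_right hκ1 h10
  have h16 := mul_le_mul_of_nonneg_right hK1 h9
  have h17 := mul_nonneg hK0.le h10
  linarith

end Trail

end Crest.Agent.N206.TW
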