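import Crest.Agent.N206.TW.Law
import Crest.Agent.N206.TW.Trail

/-!
# Row 206, S0318: the lower bound for the glued law (helper61)
-/

set_option autoImplicit false

namespace Crest.Agent.N206.TW

open Finset Filter Topology

/-- the numerical constraints on the constants -/
structure Consts (β C W M K κ : ℝ) : Prop where
  hβ : 0 < β
  hβ1 : β ≤ 1
  hC : 0 ≤ C
  hM : β * M = 4 * (β + 2 * C)
  hK : 2 * M * K = 1
  hW1 : 4 * C * M ≤ W
  hW2 : 4 * M * (M + 2) ≤ β * W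
  hκ : 0 < κ
  hκ1 : 4 * κ ≤ K
  hκ2 : κ * ((β / 40 + C) * W + 1 + 2 * M) ≤ K

theorem Consts.W24 {β C W M K κ : ℝ} (h : Consts β C W M K κ) : 24 ≤ W := by
  have hM4 : 4 ≤ M := by nlinarith [h.hβ, h.hC, h.hM]
  nlinarith [h.hβ, h.hβ1, h.hW2]

theorem exists_scale (A : ℝ) (hA : 0 ≤ A) (n : ℕ) :
    ∃ s : ℕ, A * (2 * (2 * (s : ℝ) + 2) ^ n + 1) ^ 2 ≤ 2 ^ s := by
  have hA' : 0 < 9 * 16 ^ n * A + 1 := by positivity
  have h := (tendsto_pow_const_div_const_pow_of_one_lt (2 * n)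
    (show (1 : ℝ) < 2 by norm_num)).eventually (gt_mem_nhds (inv_pos.2 hA'))
  obtain ⟨s, h1, h2⟩ := (h.and (eventually_ge_atTop 1)).exists
  refine ⟨s, ?_⟩
  have hs : (1 : ℝ) ≤ s := by exact_mod_cast h2
  rw [div_lt_iff₀ (by positivity), inv_mul_eq_div, lt_div_iff₀ hA'] at h1
  have h3 : (2 * (s : ℝ) + 2) ^ n ≤ 4 ^ n * s ^ n := by
    rw [← mul_pow]; exact pow_le_pow_left₀ (by positivity) (by linarith) n
  have h4 : 1 ≤ (2 * (s : ℝ) + 2) ^ n := one_le_pow₀ (by linarith)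
  have h5 : (2 * (2 * (s : ℝ) + 2) ^ n + 1) ^ 2 ≤ (3 * (4 ^ n * s ^ n)) ^ 2 :=
    pow_le_pow_left₀ (by positivity) (by linarith) 2
  have h6 : (3 * (4 ^ n * (s : ℝ) ^ n)) ^ 2 = 9 * 16 ^ n * s ^ (2 * n) := by
    rw [show (16 : ℝ) = 4 ^ 2 by norm_num, ← pow_mul]; ring
  have h7 : 0 ≤ (s : ℝ) ^ (2 * n) := by positivity
  nlinarith [mul_le_mul_of_nonneg_left h5 hA]

theorem exists_consts (k : ℕ) : ∃ (s : ℕ) (M K κ : ℝ),
    Consts (beta k) (nblk k s * Fintype.card (Ft k) : ℕ) (2 ^ s) M K κ := by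
  have hβ := beta_pos k
  have hβ1 := beta_le_one k
  obtain ⟨s, hs⟩ := exists_scale (672 * (Fintype.card (Ft k) : ℝ) ^ 2 / beta k ^ 3)
    (by positivity) (Nat.card (Sc k × Fin (k + 1)))
  set β := beta k
  set C : ℝ := ((nblk k s * Fintype.card (Ft k) : ℕ) : ℝ) with hC
  have hC1 : 1 ≤ C := by
    have : 1 ≤ nblk k s * Fintype.card (Ft k) :=
      Nat.mul_pos (Nat.succ_pos _) Fintype.card_pos
    rw [hC]; exact_mod_cast this
  have h1 : 672 * (C / β) ^ 2 ≤ β * 2 ^ s := by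
    refine le_trans (le_of_eq ?_) (mul_le_mul_of_nonneg_left hs hβ.le)
    rw [hC, nblk]; push_cast; field_simp
  set u := C / β with hu
  have hu1 : C ≤ u := by rw [hu, le_div_iff₀ hβ]; nlinarith
  have h2 : (0 : ℝ) < 2 ^ s := by positivity
  have hM : 0 < 4 + 8 * u := by linarith
  have hD : 0 < (β / 40 + C) * 2 ^ s + 1 + 2 * (4 + 8 * u) := by positivity
  refine ⟨s, 4 + 8 * u, (2 * (4 + 8 * u))⁻¹, min ((2 * (4 + 8 * u))⁻¹ / 4)
    ((2 * (4 + 8 * u))⁻¹ / ((β / 40 + C) * 2 ^ s + 1 + 2 * (4 + 8 * u))), hβ, hβ1, by linarith,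
    by rw [hu]; field_simp; ring, mul_inv_cancel₀ (by positivity), by nlinarith, by nlinarith,
    by positivity, ?_, ?_⟩
  · linarith [min_le_left ((2 * (4 + 8 * u))⁻¹ / 4)
      ((2 * (4 + 8 * u))⁻¹ / ((β / 40 + C) * 2 ^ s + 1 + 2 * (4 + 8 * u)))]
  · exact (le_div_iff₀ hD).1 (min_le_right _ _)

theorem exists_vals {V : Type} {k : ℕ} {α : Fin (k + 1) → V} {q : (V → Bool) → ℝ}
    (h : DependsOn q (Set.range α)) : ∃ Q : Finset ℝ, Q.card ≤ 2 ^ (k + 1) ∧ ∀ σ, q σ ∈ Q := by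
  classical
  refine ⟨univ.image fun τ : Fin (k + 1) → Bool =>
    q fun v => if h : ∃ c, α c = v then τ h.choose else false, card_image_le.trans (by simp),
    fun σ => mem_image.2 ⟨σ ∘ α, mem_univ _, h fun v hv => ?_⟩⟩
  have hv' : ∃ c, α c = v := hv
  rw [dif_pos hv', Function.comp_apply, hv'.choose_spec]

variable {V ι : Type} [Fintype V] {k J : ℕ} {d : V → V → ℝ}

omit [Fintype V] in
theorem RTD.par_out (T : RTD V k d ι) {t : ι} (ht : t ≠ T.root) : T.B (T.par t) ⊆ T.Out t :=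
  fun _ hv => ⟨_, fun h => by have := h.spec.1; have := T.dep_par t ht; omega, hv⟩

namespace World

variable {T : RTD V k d ι} {W Z : ℝ} (X : World T J W Z)

theorem small_z0 {A : Set V} {x : V} {q : (V → Bool) → ℝ} (hq : DependsOn q A) (h0 : 0 ≤ q z0)
    (h : ∀ g, DependsOn g A → X.E (fun σ => bf (ev x) σ * g σ) = X.E (fun σ => q σ * g σ)) :
    q z0 ≤ 1 / 4 := by
  classical
  let g : (V → Bool) → ℝ := fun σ => if ∀ v ∈ A, σ v = false then 1 else 0
  have hg : DependsOn g A := fun σ τ e => by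
    have : (∀ v ∈ A, σ v = false) ↔ ∀ v ∈ A, τ v = false :=
      forall₂_congr fun v hv => by rw [e v hv]
    simp only [g, this]
  have h1 := h g hg
  have h2 : (fun σ => q σ * g σ) = q z0 • g := by
    funext σ
    simp only [g, Pi.smul_apply, smul_eq_mul]
    split_ifs with e
    · rw [hq (y := z0) e]
    · simp
  have h3 : X.E (fun σ => bf (ev x) σ * g σ) ≤ ∑ v, X.E (bf (ev v)) := by
    refine le_trans (X.ex.mono fun σ => ?_) (single_le_sum (f := fun v => X.E (bf (ev v)))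
      (fun v _ => X.ex.pos _ (bf_nonneg _)) (mem_univ x))
    have := bf_nonneg (ev x) σ
    simp only [g]
    split_ifs <;> linarith
  have h4 : X.E (fun _ => 1) ≤ X.E (g + ∑ v, bf (ev v)) := by
    refine X.ex.mono fun σ => ?_
    have h5 : 0 ≤ ∑ v, bf (ev v) σ := sum_nonneg fun v _ => bf_nonneg _ _
    simp only [g, Pi.add_apply, Finset.sum_apply]
    split_ifs with e
    · linarith
    · push Not at e
      obtain ⟨v, -, hv⟩ := e
      rw [zero_add]
      refine le_trans ?_ (single_le_sum (fun v _ => bf_nonneg (ev v) σ) (mem_univ v))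
      have : σ v = true := by simpa using hv
      simp [bf, ev, this]
  rw [X.ex.one, map_add, map_sum] at h4
  rw [h2, map_smul, smul_eq_mul] at h1
  nlinarith [X.small]

/-- One side of the lower bound. -/
theorem side {M K κ Cm : ℝ}
    (hc : Consts (beta k) (J * Fintype.card (Ft k) : ℕ) W M K κ)
    (hm : ∀ (q : ℕ → (V → Bool) → ℝ) (j₀ n : ℕ), j₀ ≤ n →
      (∀ j, ∃ Q : Finset ℝ, Q.card ≤ 2 ^ (k + 1) ∧ ∀ ω, q j ω ∈ Q) →
      (∀ j, j₀ ≤ j → j < n → ∀ φ : ℝ → ℝ,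
        X.E (fun ω => (q (j + 1) ω - q j ω) * φ (q j ω)) = 0) →
      ∃ th : ℕ → ℝ, (∀ j, 1 / 4 ≤ th j ∧ th j ≤ 3 / 4) ∧
        ∑ j ∈ Finset.Ico j₀ n,
            X.E (fun ω => if (th j < q j ω ↔ th (j + 1) < q (j + 1) ω) then 0 else 1) ≤
          Cm * (X.E (fun ω => q n ω ^ 2) - X.E (fun ω => q j₀ ω ^ 2)))
    {n : ι} {x : V} (hx : x ∈ T.B n) {j : ℕ} (hj : j ≤ T.dep n) :
    ∃ (q : (V → Bool) → ℝ) (th : ℝ) (a : V), (∀ σ, 0 ≤ q σ ∧ q σ ≤ 1) ∧ 1 / 4 ≤ th ∧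
      th ≤ 3 / 4 ∧ a ∈ T.B (T.anc n j) ∧ DependsOn q (T.B (T.anc n j)) ∧
      κ * (beta k / 40 * d x a) + K * X.ρ (fun σ => decide (th < q σ)) (ev a) ≤
        Cm * (Z * X.E fun σ => q σ * (1 - q σ)) ∧
      ∀ g, (j < T.dep n → DependsOn g (T.Out (T.anc n (j + 1)))) →
        X.E (fun σ => bf (ev x) σ * g σ) = X.E (fun σ => q σ * g σ) := by
  classical
  have key : ∀ i, ∃ q : (V → Bool) → ℝ, (∀ σ, 0 ≤ q σ ∧ q σ ≤ 1) ∧
      (∃ α : Fin (k + 1) → V, DependsOn q (Set.range α)) ∧ (i = T.dep n + 1 → q = bf (ev x)) ∧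
      (0 < i → i ≤ T.dep n → DependsOn q (T.A (T.anc n i)) ∧
        ∀ g, DependsOn g (T.Out (T.anc n i)) →
          X.E (fun σ => bf (ev x) σ * g σ) = X.E (fun σ => q σ * g σ)) := by
    intro i
    by_cases h : 0 < i ∧ i ≤ T.dep n
    · obtain ⟨q, h1, h2, h3⟩ := X.markov _ (T.anc_ne_root h.1 h.2) (bf (ev x))
        (dep_bf (dep_ev ⟨n, ⟨_, rfl⟩, hx⟩)) fun σ => ⟨bf_nonneg _ _, bf_le_one _ _⟩
      exact ⟨q, h2, ⟨_, h1⟩, fun e => by omega, fun _ _ => ⟨h1, h3⟩⟩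
    · exact ⟨bf (ev x), fun σ => ⟨bf_nonneg _ _, bf_le_one _ _⟩, ⟨_, dep_bf (dep_ev hx)⟩,
        fun _ => rfl, fun h1 h2 => (h ⟨h1, h2⟩).elim⟩
  choose q hq1 hq2 hq3 hq4 using key
  have hq5 := hq3 _ rfl
  have hout : ∀ i, i < T.dep n → T.B (T.anc n i) ⊆ T.Out (T.anc n (i + 1)) := fun i hi => by
    have := T.par_out (T.anc_ne_root (t := n) (Nat.succ_pos i) hi)
    rwa [T.par_anc hi] at this
  have hAout : ∀ i, 0 < i → i ≤ T.dep n → T.A (T.anc n i) ⊆ T.Out (T.anc n i) :=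
    fun i h0 hi => (T.adh_par _).trans (T.par_out (T.anc_ne_root h0 hi))
  have hnext : ∀ i, i ≤ T.dep n → ∀ g, (i < T.dep n → DependsOn g (T.Out (T.anc n (i + 1)))) →
      X.E (fun σ => bf (ev x) σ * g σ) = X.E (fun σ => q (i + 1) σ * g σ) := by
    intro i hi g hg
    rcases hi.eq_or_lt with e | e
    · rw [e, hq5]
    · exact (hq4 _ (Nat.succ_pos i) e).2 g (hg e)
  obtain ⟨th, hth, hsum⟩ := hm q (j + 1) (T.dep n + 1) (by omega)
    (fun i => (hq2 i).elim fun _ h => exists_vals h) fun i h1 h2 φ => by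
      obtain ⟨h3, h4⟩ := hq4 i (by omega) (by omega)
      have h5 : DependsOn (fun σ => φ (q i σ)) (T.A (T.anc n i)) := fun σ τ e => by
        simp only [h3 e]
      have h6 := h4 _ (h5.mono (hAout i (by omega) (by omega)))
      have h7 := hnext i (by omega) _ fun h => h5.mono ((T.adh_bag _).trans (hout i h))
      have h8 : (fun ω => (q (i + 1) ω - q i ω) * φ (q i ω)) =
          (fun σ => q (i + 1) σ * φ (q i σ)) - fun σ => q i σ * φ (q i σ) := by
        funext σ; simp only [Pi.sub_apply]; ring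
      rw [h8, map_sub, ← h6, ← h7, sub_self]
  let F : ℕ → (V → Bool) → Bool := fun i σ => decide (th i < q i σ)
  have hmin : ∀ i, ∃ a : V, (i = T.dep n + 1 → a = x) ∧ (i ≤ T.dep n →
      a ∈ T.A (T.anc n i) ∧ ∀ u ∈ T.A (T.anc n i), X.ρ (F i) (ev a) ≤ X.ρ (F i) (ev u)) := by
    intro i
    by_cases h : i ≤ T.dep n
    · obtain ⟨c, hc⟩ := Finite.exists_min fun c => X.ρ (F i) (ev (T.adh (T.anc n i) c))
      refine ⟨T.adh (T.anc n i) c, fun e => by omega, fun _ => ⟨⟨c, rfl⟩, ?_⟩⟩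
      rintro _ ⟨c', rfl⟩
      exact hc c'
    · exact ⟨x, fun _ => rfl, fun h' => (h h').elim⟩
  choose a ha1 ha2 using hmin
  have hT : Trail (X.path n) (j + 1) x F a := by
    refine ⟨Nat.succ_pos j, ?_, fun i h1 h2 => ⟨fun σ τ e => ?_, ?_⟩,
      fun i _ h2 => (ha2 i h2).1, fun i _ h2 => (ha2 i h2).2, ?_, ha1 _ rfl⟩
    · change x ∈ T.B (T.anc n (T.dep n))
      rwa [T.anc_self]
    · simp only [F, (hq4 i (by omega) h2).1 e]
    · obtain ⟨h3, h4⟩ := hq4 i (by omega) h2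
      have := X.small_z0 h3 (hq1 i z0).1 fun g hg => h4 g (hg.mono (hAout i (by omega) h2))
      have h5 := (hth i).1
      simp only [F, decide_eq_false_iff_not, not_lt]
      linarith
    · funext σ
      have h5 := hth (T.dep n + 1)
      change decide (th (T.dep n + 1) < q (T.dep n + 1) σ) = σ x
      rw [hq5]
      cases e : σ x
      · simp only [bf, ev, e, decide_eq_false_iff_not, not_lt]
        norm_num; linarith
      · simp only [bf, ev, e, decide_eq_true_eq]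
        norm_num; linarith
  have hmain := hT.main hc.hβ hc.hβ1 hc.hC hc.hM hc.hK hc.hW1 hc.hW2 hc.hκ.le hc.hκ1 hc.hκ2
    le_rfl (by omega)
  refine ⟨q (j + 1), th (j + 1), a (j + 1), hq1 _, (hth _).1, (hth _).2, ?_, ?_,
    hmain.trans ?_, hnext j hj⟩
  · rcases hj.eq_or_lt with e | e
    · rw [e, ha1 _ rfl, T.anc_self]; exact hx
    · rw [← T.par_anc e]; exact T.adh_par _ (ha2 _ e).1
  · rcases hj.eq_or_lt with e | e
    · rw [e, hq5, T.anc_self]; exact dep_bf (dep_ev hx)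
    · rw [← T.par_anc e]; exact (hq4 _ (Nat.succ_pos j) e).1.mono (T.adh_par _)
  · have h1 : Trail.G (X.path n) F (j + 1) (T.dep n + 1) = Z * ∑ i ∈ Ico (j + 1) (T.dep n + 1),
        X.E (fun ω => if (th i < q i ω ↔ th (i + 1) < q (i + 1) ω) then 0 else 1) := by
      rw [mul_sum]
      refine sum_congr rfl fun i _ => ?_
      change Z * X.E _ = _
      congr 2
      funext σ
      simp only [dis, F, decide_eq_decide]
    have h2 := hnext j hj (fun _ => 1) fun _ _ _ _ => rfl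
    have h3 : (fun ω => q (T.dep n + 1) ω ^ 2) = fun σ => bf (ev x) σ * 1 := by
      funext σ; rw [hq5]; unfold bf; split_ifs <;> norm_num
    have h4 : (fun σ => q (j + 1) σ * (1 - q (j + 1) σ)) =
        (fun σ => q (j + 1) σ * 1) - fun σ => q (j + 1) σ ^ 2 := by
      funext σ; simp only [Pi.sub_apply]; ring
    rw [h3, h2] at hsum
    rw [h1, h4, map_sub, mul_left_comm]
    exact mul_le_mul_of_nonneg_left hsum X.Z_pos.le

/-- The lower bound. -/
theorem lower {M K κ Cm : ℝ} (hCm : 0 ≤ Cm)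
    (hc : Consts (beta k) (J * Fintype.card (Ft k) : ℕ) W M K κ)
    (hm : ∀ (q : ℕ → (V → Bool) → ℝ) (j₀ n : ℕ), j₀ ≤ n →
      (∀ j, ∃ Q : Finset ℝ, Q.card ≤ 2 ^ (k + 1) ∧ ∀ ω, q j ω ∈ Q) →
      (∀ j, j₀ ≤ j → j < n → ∀ φ : ℝ → ℝ,
        X.E (fun ω => (q (j + 1) ω - q j ω) * φ (q j ω)) = 0) →
      ∃ th : ℕ → ℝ, (∀ j, 1 / 4 ≤ th j ∧ th j ≤ 3 / 4) ∧
        ∑ j ∈ Finset.Ico j₀ n,
            X.E (fun ω => if (th j < q j ω ↔ th (j + 1) < q (j + 1) ω) then 0 else 1) ≤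
          Cm * (X.E (fun ω => q n ω ^ 2) - X.E (fun ω => q j₀ ω ^ 2))) (x y : V) :
    κ * (beta k / 40 * d x y) ≤ (3 * Cm + 16 * κ) * X.ρ (ev x) (ev y) := by
  classical
  obtain ⟨n, hx⟩ := T.cover x
  obtain ⟨n', hy⟩ := T.cover y
  let Q : ℕ → Prop := fun i => T.anc n i = T.anc n' i
  set j := Nat.findGreatest Q (min (T.dep n) (T.dep n')) with hj
  have hj1 : j ≤ min (T.dep n) (T.dep n') := Nat.findGreatest_le _
  have hj2 : T.anc n j = T.anc n' j :=
    Nat.findGreatest_spec (P := Q) (Nat.zero_le _) (by simp only [Q, T.anc_zero])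
  obtain ⟨p, s, a, p1, s1, s2, ha, p2, p3, p4⟩ := X.side hc hm hx (j := j) (by omega)
  obtain ⟨q, t, b, q1, t1, t2, hb, q2, q3, q4⟩ := X.side hc hm hy (j := j) (by omega)
  have e1 := p4 (fun _ => 1) fun _ _ _ _ => rfl
  have e2 := q4 (fun _ => 1) fun _ _ _ _ => rfl
  have e3 := p4 (bf (ev y)) fun h => dep_bf (dep_ev ⟨n', fun h' => by
    have h1 := h'.spec
    rw [T.dep_anc h] at h1
    exact Nat.findGreatest_is_greatest (P := Q) (Nat.lt_succ_self j) (by omega) h1.2.symm, hy⟩)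
  have e4 := q4 p fun h => p2.mono (by
    have := T.par_out (T.anc_ne_root (t := n') (Nat.succ_pos j) h)
    rwa [T.par_anc h, ← hj2] at this)
  have e5 : X.E (dis (ev x) (ev y)) = X.E fun σ => p σ + q σ - 2 * (p σ * q σ) := by
    have h1 : dis (ev x) (ev y) = (fun σ => bf (ev x) σ * 1) + (fun σ => bf (ev y) σ * 1) -
        (2 : ℝ) • fun σ => bf (ev x) σ * bf (ev y) σ := by
      funext σ
      simp only [dis, bf, Pi.add_apply, Pi.sub_apply, Pi.smul_apply, smul_eq_mul]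
      cases ev x σ <;> cases ev y σ <;> norm_num
    have h2 : (fun σ => p σ + q σ - 2 * (p σ * q σ)) = (fun σ => p σ * 1) + (fun σ => q σ * 1) -
        (2 : ℝ) • fun σ => q σ * p σ := by
      funext σ
      simp only [Pi.add_apply, Pi.sub_apply, Pi.smul_apply, smul_eq_mul]
      ring
    have h3 : (fun σ => p σ * bf (ev y) σ) = fun σ => bf (ev y) σ * p σ := by
      funext σ; ring
    rw [h1, h2, map_sub, map_sub, map_add, map_add, map_smul, map_smul, e1, e2, e3, h3, e4]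
  have hZ := X.Z_pos.le
  have l1 : (Z * X.E fun σ => p σ * (1 - p σ)) + (Z * X.E fun σ => q σ * (1 - q σ)) ≤
      X.ρ (ev x) (ev y) := by
    rw [ρ, e5, ← mul_add, ← map_add]
    refine mul_le_mul_of_nonneg_left (X.ex.mono fun σ => ?_) hZ
    simp only [Pi.add_apply]
    nlinarith [sq_nonneg (p σ - q σ)]
  have l2 : X.ρ (fun σ => decide (s < p σ)) (fun σ => decide (t < q σ)) ≤
      16 * X.ρ (ev x) (ev y) := by
    rw [ρ, ρ, e5, mul_left_comm, ← smul_eq_mul 16, ← map_smul]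
    refine mul_le_mul_of_nonneg_left (X.ex.mono fun σ => ?_) hZ
    obtain ⟨h1, h2⟩ := p1 σ
    obtain ⟨h3, h4⟩ := q1 σ
    simp only [dis, Pi.smul_apply, smul_eq_mul, decide_eq_decide]
    split_ifs with h
    · nlinarith [mul_nonneg h1 (sub_nonneg.2 h4), mul_nonneg h3 (sub_nonneg.2 h2)]
    · by_cases h5 : s < p σ
      · have h6 : q σ ≤ t := not_lt.1 fun h6 => h ⟨fun _ => h6, fun _ => h5⟩
        nlinarith [mul_nonneg h3 (sub_nonneg.2 h2),
          mul_nonneg (show 0 ≤ p σ - 1 / 4 by linarith) (show 0 ≤ 3 / 4 - q σ by linarith)]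
      · have h6 : t < q σ := by
          by_contra h6
          exact h ⟨fun h => (h5 h).elim, fun h => (h6 h).elim⟩
        nlinarith [mul_nonneg h1 (sub_nonneg.2 h4),
          mul_nonneg (show 0 ≤ q σ - 1 / 4 by linarith) (show 0 ≤ 3 / 4 - p σ by linarith)]
  have l3 : beta k / 40 * d a b ≤ X.ρ (ev a) (ev b) :=
    (X.path n).r1 hc.hβ.le hc.W24 (j := j) (by omega) ha (by rw [← hj2] at hb; exact hb)
  have l4 := X.pmet.tri (ev a) (fun σ => decide (s < p σ)) (ev b)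
  have l5 := X.pmet.tri (fun σ => decide (s < p σ)) (fun σ => decide (t < q σ)) (ev b)
  rw [X.pmet.comm (ev a) fun σ => decide (s < p σ)] at l4
  have l6 : d x y ≤ d x a + d a b + d y b := by
    linarith [X.hd.tri x a y, X.hd.tri a b y, X.hd.comm b y]
  have l7 := X.pmet.nonneg (fun σ => decide (s < p σ)) (ev a)
  have l8 := X.pmet.nonneg (fun σ => decide (t < q σ)) (ev b)
  have l9 := X.pmet.nonneg (ev x) (ev y)
  have hκ := hc.hκ
  have hκ1 := hc.hκ1
  have m1 := mul_le_mul_of_nonneg_left l6 (show 0 ≤ κ * (beta k / 40) by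
    have := hc.hβ; positivity)
  have m2 := mul_le_mul_of_nonneg_left l1 hCm
  have m3 := mul_le_mul_of_nonneg_left (l3.trans (l4.trans (add_le_add le_rfl
    (l5.trans (add_le_add l2 le_rfl))))) hκ.le
  nlinarith [mul_nonneg hCm l9, mul_nonneg (show 0 ≤ K - κ by linarith) l7,
    mul_nonneg (show 0 ≤ K - κ by linarith) l8]

end World

theorem main (glue : GlueStmt) (markov : MarkovStmt) : MainStmt := by
  intro k
  obtain ⟨s, M, K, κ, hc⟩ := exists_consts k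
  obtain ⟨Cm, hCm, hm⟩ := markov (2 ^ (k + 1))
  have hβ := hc.hβ
  have hκ := hc.hκ
  have hL : 0 < (3 * Cm + 16 * κ) / (κ * (beta k / 40)) := by positivity
  refine ⟨(3 * Cm + 16 * κ) / (κ * (beta k / 40)) * (nblk k s * Fintype.card (Ft k) : ℕ),
    by positivity, fun V ι _ _ d hd T => ?_⟩
  obtain ⟨Z, ⟨X⟩⟩ := exists_world glue hd T s
  refine ⟨X.E, (3 * Cm + 16 * κ) / (κ * (beta k / 40)) * Z, X.ex,
    (mul_pos hL X.Z_pos).le, fun x y => ?_⟩
  have h1 := X.lower hCm.le hc (hm _ X.E X.ex) x y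
  have h2 := mul_le_mul_of_nonneg_left (X.up x y) hL.le
  rw [mul_assoc, mul_assoc]
  refine ⟨?_, h2⟩
  change _ ≤ _ * X.ρ (ev x) (ev y)
  rw [div_mul_eq_mul_div, le_div_iff₀ (by positivity)]
  linarith

end Crest.Agent.N206.TW
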