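import Crest.Agent.N206.TW.Defs

/-!
# Row 206, S0318: thresholds for a martingale with boundedly many values (helper64)
-/

set_option autoImplicit false

namespace Crest.Agent.N206.TW

open Finset

namespace Markov

theorem ex_mono {Ω : Type} {E : (Ω → ℝ) →ₗ[ℝ] ℝ} (h : IsEx E) {f g : Ω → ℝ}
    (hfg : ∀ ω, f ω ≤ g ω) : E f ≤ E g := by
  have h1 := h.pos (g - f) fun ω => by simpa using hfg ω
  rw [map_sub] at h1
  linarith

/-- The radius of level `i`. -/
noncomputable def R (s i : ℕ) : ℝ := 1 / 4 * (1 / (2 * ((s : ℝ) + 1))) ^ i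

theorem R_pos (s i : ℕ) : 0 < R s i := by unfold R; positivity

theorem R_succ (s i : ℕ) : 2 * R s (i + 1) = R s i / (s + 1) := by
  unfold R
  rw [pow_succ]
  field_simp

theorem R_anti (s : ℕ) {i j : ℕ} (h : i ≤ j) : R s j ≤ R s i := by
  unfold R
  refine mul_le_mul_of_nonneg_left (pow_le_pow_of_le_one (by positivity) ?_ h) (by norm_num)
  rw [div_le_one (by positivity)]
  have : (0 : ℝ) ≤ s := by positivity
  linarith

/-- Pigeonhole: a child interval whose double misses `Q`. -/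
theorem next {s : ℕ} (Q : Finset ℝ) (hQ : Q.card ≤ s) (i : ℕ) (x : ℝ) :
    ∃ y, |y - x| + 2 * R s (i + 1) ≤ R s i ∧ ∀ z ∈ Q, 2 * R s (i + 1) ≤ |z - y| := by
  set g := 2 * R s (i + 1) with hg
  have hg0 : 0 < g := by have := R_pos s (i + 1); positivity
  have hRg : R s i = (s + 1) * g := by
    rw [hg, R_succ]; field_simp
  by_contra hcon
  push Not at hcon
  have h1 : ∀ m : Fin (s + 1), ∃ z ∈ Q, |z - (x - R s i + (2 * (m : ℕ) + 1) * g)| < g := by
    intro m
    refine hcon _ ?_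
    have hm : ((m : ℕ) : ℝ) ≤ s := by exact_mod_cast Nat.lt_succ_iff.1 m.2
    have hm0 : (0 : ℝ) ≤ (m : ℕ) := by positivity
    have : |x - R s i + (2 * (m : ℕ) + 1) * g - x| ≤ R s i - g := by
      rw [abs_le, hRg]
      constructor <;> nlinarith
    linarith
  choose z hz hz' using h1
  have hinj : Function.Injective z := by
    intro m m' e
    have a := abs_lt.1 (hz' m)
    have b := abs_lt.1 (hz' m')
    rw [e] at a
    have c1 : ((m : ℕ) : ℝ) < (m' : ℕ) + 1 := by nlinarith [a.1, a.2, b.1, b.2]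
    have c2 : ((m' : ℕ) : ℝ) < (m : ℕ) + 1 := by nlinarith [a.1, a.2, b.1, b.2]
    have c3 : (m : ℕ) < (m' : ℕ) + 1 := by exact_mod_cast c1
    have c4 : (m' : ℕ) < (m : ℕ) + 1 := by exact_mod_cast c2
    exact Fin.ext (by omega)
  have h2 : (univ : Finset (Fin (s + 1))).card ≤ Q.card :=
    card_le_card_of_injOn z (fun m _ => hz m) hinj.injOn
  simp at h2
  omega

/-- Nested intervals: the double of each level lies in the previous level. -/
def Good (s : ℕ) (c : ℕ → ℝ) : Prop :=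
  c 0 = 1 / 2 ∧ ∀ i, |c (i + 1) - c i| + 2 * R s (i + 1) ≤ R s i

theorem Good.nest {s : ℕ} {c : ℕ → ℝ} (h : Good s c) {i j : ℕ} (hij : i < j) :
    |c j - c i| + 2 * R s j ≤ R s i := by
  induction j, hij using Nat.le_induction with
  | base => exact h.2 i
  | succ j _ ih =>
    have h1 := h.2 j
    have h2 := abs_sub_le (c (j + 1)) (c j) (c i)
    have := R_pos s j
    linarith

theorem Good.mem {s : ℕ} {c : ℕ → ℝ} (h : Good s c) (j : ℕ) :
    1 / 4 ≤ c (j + 1) ∧ c (j + 1) ≤ 3 / 4 := by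
  have h1 := h.nest (Nat.succ_pos j)
  have h2 := R_pos s (j + 1)
  have h3 : R s 0 = 1 / 4 := by simp [R]
  rw [h.1, h3] at h1
  have h4 := abs_le.1 (show |c (j + 1) - 1 / 2| ≤ 1 / 4 by
    simp only [Nat.succ_eq_add_one] at h1; linarith)
  constructor <;> linarith [h4.1, h4.2]

theorem extend {s : ℕ} (c : ℕ → ℝ) (r : ℕ) (h0 : c 0 = 1 / 2)
    (hc : ∀ i < r, |c (i + 1) - c i| + 2 * R s (i + 1) ≤ R s i) (Q : Finset ℝ) (hQ : Q.card ≤ s) :
    ∃ c', Good s c' ∧ (∀ i ≤ r, c' i = c i) ∧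
      ∀ i, r ≤ i → ∀ z ∈ Q, 2 * R s (i + 1) ≤ |z - c' (i + 1)| := by
  choose nx hnx hnx' using next Q hQ
  let c' : ℕ → ℝ := fun i => Nat.rec (c 0) (fun i y => if i < r then c (i + 1) else nx i y) i
  have e : ∀ i, c' (i + 1) = if i < r then c (i + 1) else nx i (c' i) := fun _ => rfl
  have e0 : ∀ i ≤ r, c' i = c i := by
    intro i hi
    cases i with
    | zero => rfl
    | succ i => rw [e, if_pos (by omega)]
  refine ⟨c', ⟨h0, fun i => ?_⟩, e0, fun i hi z hz => ?_⟩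
  · by_cases hi : i < r
    · rw [e0 _ hi, e0 _ hi.le]; exact hc i hi
    · rw [e, if_neg hi]; exact hnx _ _
  · rw [e, if_neg (by omega)]; exact hnx' _ _ z hz

/-- The bump `((ρ - |x - c|)⁺)²`. -/
noncomputable def kk (ρ c x : ℝ) : ℝ := (max 0 (ρ - |x - c|)) ^ 2

/-- Its derivative. -/
noncomputable def dk (ρ c x : ℝ) : ℝ := -2 * max 0 (ρ - |x - c|) * (if c ≤ x then 1 else -1)

theorem kk_nonneg (ρ c x : ℝ) : 0 ≤ kk ρ c x := sq_nonneg _

theorem kk_step (ρ c a b : ℝ) : kk ρ c b ≤ kk ρ c a + (b - a) * dk ρ c a + (b - a) ^ 2 := by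
  unfold kk dk
  set σ : ℝ := if c ≤ a then 1 else -1 with hσ
  have hσ2 : σ ^ 2 = 1 := by rw [hσ]; split_ifs <;> norm_num
  have h1 : |a - c| + σ * (b - a) ≤ |b - c| := by
    rw [hσ]
    split_ifs with h
    · rw [abs_of_nonneg (sub_nonneg.2 h)]; linarith [le_abs_self (b - c)]
    · rw [abs_of_neg (by linarith)]; linarith [neg_abs_le (b - c)]
  set t := max 0 (ρ - |a - c|) with ht
  have h2 : max 0 (ρ - |b - c|) ≤ |t - σ * (b - a)| := by
    refine max_le (abs_nonneg _) ?_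
    have := le_max_right 0 (ρ - |a - c|)
    linarith [le_abs_self (t - σ * (b - a))]
  have h3 : (max 0 (ρ - |b - c|)) ^ 2 ≤ (t - σ * (b - a)) ^ 2 := by
    rw [← sq_abs (t - σ * (b - a))]
    exact pow_le_pow_left₀ (le_max_left _ _) h2 2
  have h4 : (t - σ * (b - a)) ^ 2 = t ^ 2 + (b - a) * (-2 * t * σ) + σ ^ 2 * (b - a) ^ 2 := by ring
  rw [h4, hσ2] at h3
  linarith

theorem kk_zero {ρ c x : ℝ} (h : ρ ≤ |x - c|) : kk ρ c x = 0 := by
  unfold kk
  rw [max_eq_left (by linarith)]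
  ring

theorem kk_ge {ρ ρ' c x : ℝ} (h0 : 0 ≤ ρ') (hρ : ρ' ≤ ρ) (h : |x - c| < ρ) :
    ρ' ^ 2 ≤ kk (2 * ρ) c x :=
  pow_le_pow_left₀ h0 (le_trans (by linarith) (le_max_right _ _)) 2

section
variable {Ω : Type} {E : (Ω → ℝ) →ₗ[ℝ] ℝ}

/-- The mass of the level `i`. -/
noncomputable def mass (E : (Ω → ℝ) →ₗ[ℝ] ℝ) (s : ℕ) (c : ℕ → ℝ) (p : Ω → ℝ) (i : ℕ) : ℝ :=
  E fun ω => if |p ω - c i| < R s i then 1 else 0

theorem exists_level (hE : IsEx E) {s : ℕ} {c : ℕ → ℝ} (hc : Good s c) (p : Ω → ℝ)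
    (Q : Finset ℝ) (hQ : Q.card ≤ s) (hp : ∀ ω, p ω ∈ Q) :
    ∃ r ≤ s, mass E s c p r ≤ 2 * mass E s c p (r + 1) := by
  by_contra hcon
  push Not at hcon
  have key : ∀ r ≤ s + 1, (Q.filter fun z => |z - c r| < R s r).card + r ≤ s := by
    intro r
    induction r with
    | zero => intro _; exact (card_filter_le _ _).trans hQ
    | succ r ih =>
      intro hr
      have ih' := ih (by omega)
      have hsub : ∀ z, |z - c (r + 1)| < R s (r + 1) → |z - c r| < R s r := by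
        intro z hz
        have h1 := hc.2 r
        have h2 := abs_sub_le z (c (r + 1)) (c r)
        have := R_pos s (r + 1)
        linarith
      have hlt : (Q.filter fun z => |z - c (r + 1)| < R s (r + 1)).card <
          (Q.filter fun z => |z - c r| < R s r).card := by
        refine card_lt_card ⟨fun z hz => ?_, fun hh => ?_⟩
        · rw [mem_filter] at hz ⊢
          exact ⟨hz.1, hsub z hz.2⟩
        · have h1 := hcon r (by omega)
          have h2 : mass E s c p r ≤ mass E s c p (r + 1) := by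
            refine ex_mono hE fun ω => ?_
            by_cases h : |p ω - c r| < R s r
            · have := (mem_filter.1 (hh (mem_filter.2 ⟨hp ω, h⟩))).2
              simp [h, this]
            · rw [if_neg h]; split_ifs <;> norm_num
          have h3 : 0 ≤ mass E s c p (r + 1) := hE.pos _ fun ω => by split_ifs <;> norm_num
          linarith
      omega
  have := key (s + 1) le_rfl
  omega

/-- The potential. -/
noncomputable def pot (E : (Ω → ℝ) →ₗ[ℝ] ℝ) (s : ℕ) (c : ℕ → ℝ) (p : Ω → ℝ) : ℝ :=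
  ∑ i ∈ range (s + 1), E fun ω => kk (2 * R s (i + 1)) (c (i + 1)) (p ω)

theorem pot_nonneg (hE : IsEx E) (s : ℕ) (c : ℕ → ℝ) (p : Ω → ℝ) : 0 ≤ pot E s c p :=
  sum_nonneg fun _ _ => hE.pos _ fun _ => kk_nonneg _ _ _

theorem qv_eq {p p' : Ω → ℝ} (hm : ∀ φ : ℝ → ℝ, E (fun ω => (p' ω - p ω) * φ (p ω)) = 0) :
    E (fun ω => (p' ω - p ω) ^ 2) = E (fun ω => p' ω ^ 2) - E (fun ω => p ω ^ 2) := by
  have e : (fun ω => (p' ω - p ω) ^ 2) =
      (fun ω => p' ω ^ 2) - (fun ω => p ω ^ 2) - fun ω => (p' ω - p ω) * (2 * p ω) := by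
    funext ω; simp only [Pi.sub_apply]; ring
  rw [e, map_sub, map_sub, hm fun x => 2 * x, sub_zero]

theorem pot_step (hE : IsEx E) (s : ℕ) (c : ℕ → ℝ) {p p' : Ω → ℝ}
    (hm : ∀ φ : ℝ → ℝ, E (fun ω => (p' ω - p ω) * φ (p ω)) = 0) :
    pot E s c p' ≤ pot E s c p + (s + 1) * E (fun ω => (p' ω - p ω) ^ 2) := by
  have h : ∀ ρ x : ℝ, E (fun ω => kk ρ x (p' ω)) ≤
      E (fun ω => kk ρ x (p ω)) + E (fun ω => (p' ω - p ω) ^ 2) := by
    intro ρ x
    have h1 := ex_mono hE (f := fun ω => kk ρ x (p' ω))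
      (g := (fun ω => kk ρ x (p ω)) + (fun ω => (p' ω - p ω) * dk ρ x (p ω)) +
        fun ω => (p' ω - p ω) ^ 2) fun ω => kk_step ρ x (p ω) (p' ω)
    rw [map_add, map_add, hm (dk ρ x), add_zero] at h1
    exact h1
  refine (sum_le_sum fun i _ => h _ _).trans (le_of_eq ?_)
  rw [sum_add_distrib, sum_const, card_range, nsmul_eq_mul]
  push_cast
  rfl

/-- One step of the construction. -/
theorem step (hE : IsEx E) {s : ℕ} {c : ℕ → ℝ} (hc : Good s c) {p p' : Ω → ℝ}
    (hp : ∀ ω, 2 * R s (s + 1) ≤ |p ω - c (s + 1)|)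
    (Q : Finset ℝ) (hQ : Q.card ≤ s) (hp' : ∀ ω, p' ω ∈ Q)
    (hm : ∀ φ : ℝ → ℝ, E (fun ω => (p' ω - p ω) * φ (p ω)) = 0) :
    ∃ c', Good s c' ∧ (∀ ω, 2 * R s (s + 1) ≤ |p' ω - c' (s + 1)|) ∧
      R s (s + 1) ^ 2 *
          E (fun ω => if (c (s + 1) < p ω ↔ c' (s + 1) < p' ω) then 0 else 1) +
        2 * pot E s c' p' ≤ 2 * pot E s c p + (2 * s + 3) * E (fun ω => (p' ω - p ω) ^ 2) := by
  obtain ⟨r, hr, hmass⟩ := exists_level hE hc p' Q hQ hp'
  obtain ⟨c', hc', he, hz⟩ := extend c r hc.1 (fun i _ => hc.2 i) Q hQ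
  refine ⟨c', hc', fun ω => hz s hr _ (hp' ω), ?_⟩
  set ρ := R s (s + 1) with hρ
  have hρ0 : 0 < ρ := R_pos _ _
  -- the cost
  have h1 : ρ ^ 2 * E (fun ω => if (c (s + 1) < p ω ↔ c' (s + 1) < p' ω) then 0 else 1) ≤
      E (fun ω => (p' ω - p ω) ^ 2) + ρ ^ 2 * mass E s c p' r := by
    rw [mass, ← smul_eq_mul, ← smul_eq_mul (ρ ^ 2), ← map_smul, ← map_smul, ← map_add]
    refine ex_mono hE fun ω => ?_
    simp only [Pi.smul_apply, Pi.add_apply, smul_eq_mul]
    have a0 := sq_nonneg (p' ω - p ω)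
    have a1 := sq_nonneg ρ
    by_cases hh : (c (s + 1) < p ω ↔ c' (s + 1) < p' ω)
    · rw [if_pos hh]; split_ifs <;> linarith
    rw [if_neg hh]
    by_cases hi : |p' ω - c r| < R s r
    · rw [if_pos hi]; linarith
    rw [if_neg hi]
    have b1 := hc.nest (show r < s + 1 by omega)
    have b2 := hc'.nest (show r < s + 1 by omega)
    rw [he r le_rfl] at b2
    have b3 := abs_le.1 (show |c (s + 1) - c r| ≤ R s r - 2 * ρ by linarith)
    have b4 := abs_le.1 (show |c' (s + 1) - c r| ≤ R s r - 2 * ρ by linarith)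
    have b5 := le_abs'.1 (not_lt.1 hi)
    have b6 := le_abs'.1 (hp ω)
    have b7 : ρ ≤ |p' ω - p ω| := by
      rw [le_abs']
      by_contra hcon
      push Not at hcon
      apply hh
      constructor <;> intro h <;> rcases b5 with b5 | b5 <;> rcases b6 with b6 | b6 <;>
        linarith [hcon.1, hcon.2, b3.1, b3.2, b4.1, b4.2]
    have b8 : ρ ^ 2 ≤ |p' ω - p ω| ^ 2 := pow_le_pow_left₀ hρ0.le b7 2
    rw [sq_abs] at b8
    linarith
  have h2 : ρ ^ 2 * mass E s c p' (r + 1) ≤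
      E fun ω => kk (2 * R s (r + 1)) (c (r + 1)) (p' ω) := by
    rw [mass, ← smul_eq_mul, ← map_smul]
    refine ex_mono hE fun ω => ?_
    simp only [Pi.smul_apply, smul_eq_mul]
    split_ifs with h
    · rw [mul_one]; exact kk_ge hρ0.le (R_anti s (by omega)) h
    · rw [mul_zero]; exact kk_nonneg _ _ _
  have h3 : pot E s c' p' + (E fun ω => kk (2 * R s (r + 1)) (c (r + 1)) (p' ω)) ≤
      pot E s c p' := by
    unfold pot
    have hr' : r ∈ range (s + 1) := mem_range.2 (by omega)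
    rw [← add_sum_erase _ _ hr', ← add_sum_erase _ _ hr']
    have z0 : ∀ i, r ≤ i → (E fun ω => kk (2 * R s (i + 1)) (c' (i + 1)) (p' ω)) = 0 := by
      intro i hi
      have : (fun ω => kk (2 * R s (i + 1)) (c' (i + 1)) (p' ω)) = 0 :=
        funext fun ω => kk_zero (hz i hi _ (hp' ω))
      rw [this, map_zero]
    rw [z0 r le_rfl, zero_add, add_comm]
    refine add_le_add le_rfl (sum_le_sum fun i _ => ?_)
    by_cases hi : r ≤ i
    · rw [z0 i hi]; exact hE.pos _ fun _ => kk_nonneg _ _ _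
    · rw [he (i + 1) (by omega)]
  have h4 := pot_step hE s c hm
  have h5 := mul_le_mul_of_nonneg_left hmass (sq_nonneg ρ)
  nlinarith

end

end Markov

open Markov in
theorem markov : MarkovStmt := by
  intro s
  have hρ0 : 0 < R s (s + 1) := R_pos _ _
  refine ⟨(2 * s + 3) / R s (s + 1) ^ 2, by positivity, ?_⟩
  intro Ω E hE q j₀ n hn hQ hm
  have key : ∃ (th : ℕ → ℝ) (c : ℕ → ℝ), Good s c ∧ th n = c (s + 1) ∧
      (∀ j, 1 / 4 ≤ th j ∧ th j ≤ 3 / 4) ∧ (∀ ω, 2 * R s (s + 1) ≤ |q n ω - c (s + 1)|) ∧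
      R s (s + 1) ^ 2 * ∑ j ∈ Finset.Ico j₀ n,
            E (fun ω => if (th j < q j ω ↔ th (j + 1) < q (j + 1) ω) then 0 else 1) +
          2 * pot E s c (q n) ≤
        (2 * s + 3) * (E (fun ω => q n ω ^ 2) - E (fun ω => q j₀ ω ^ 2)) := by
    induction n, hn using Nat.le_induction with
    | base =>
      obtain ⟨Q, hQ1, hQ2⟩ := hQ j₀
      obtain ⟨c, hc, -, hz⟩ := extend (s := s) (fun _ => 1 / 2) 0 rfl (fun i hi => by omega) Q hQ1
      refine ⟨fun _ => c (s + 1), c, hc, rfl, fun _ => hc.mem s,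
        fun ω => hz s (Nat.zero_le _) _ (hQ2 ω), ?_⟩
      have : pot E s c (q j₀) = 0 := by
        refine sum_eq_zero fun i _ => ?_
        have : (fun ω => kk (2 * R s (i + 1)) (c (i + 1)) (q j₀ ω)) = 0 :=
          funext fun ω => kk_zero (hz i (Nat.zero_le _) _ (hQ2 ω))
        rw [this, map_zero]
      simp [this]
    | succ n hn ih =>
      obtain ⟨th, c, hc, hth, hmem, hfar, hle⟩ := ih fun j h1 h2 => hm j h1 (by omega)
      obtain ⟨Q, hQ1, hQ2⟩ := hQ (n + 1)
      have hm' := hm n hn (by omega)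
      obtain ⟨c', hc', hfar', hle'⟩ := step hE hc hfar Q hQ1 hQ2 hm'
      refine ⟨Function.update th (n + 1) (c' (s + 1)), c', hc', by simp, fun j => ?_, hfar', ?_⟩
      · by_cases hj : j = n + 1
        · subst hj; simpa using hc'.mem s
        · rw [Function.update_of_ne hj]; exact hmem j
      · rw [sum_Ico_succ_top hn]
        have e1 : ∑ j ∈ Finset.Ico j₀ n, E (fun ω =>
            if (Function.update th (n + 1) (c' (s + 1)) j < q j ω ↔
              Function.update th (n + 1) (c' (s + 1)) (j + 1) < q (j + 1) ω) then 0 else 1) =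
            ∑ j ∈ Finset.Ico j₀ n,
              E (fun ω => if (th j < q j ω ↔ th (j + 1) < q (j + 1) ω) then 0 else 1) := by
          refine sum_congr rfl fun j hj => ?_
          have := (mem_Ico.1 hj).2
          rw [Function.update_of_ne (by omega), Function.update_of_ne (by omega)]
        rw [e1, Function.update_of_ne (by omega), Function.update_self, hth]
        rw [qv_eq hm'] at hle'
        nlinarith
  obtain ⟨th, c, -, -, hmem, -, hle⟩ := key
  refine ⟨th, hmem, ?_⟩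
  have h0 := pot_nonneg hE s c (q n)
  rw [div_mul_eq_mul_div, le_div_iff₀ (by positivity)]
  linarith

end Crest.Agent.N206.TW
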