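import Crest.Agent.N206.TW.Defs

/-!
# Row 206, S0318: threshold cuts of a real function (helper61)
-/

set_option autoImplicit false

namespace Crest.Agent.N206.TW

open MeasureTheory Set

variable {V : Type}

/-- the pattern of `m` at level `τ` -/
noncomputable def pat (m : V → ℝ) (τ : ℝ) : V → Bool := fun v => decide (τ < m v)

/-- the trivial pattern -/
def z0 : V → Bool := fun _ => false

/-- disagreement of two Boolean functions -/
def dis {Ω : Type} (F F' : Ω → Bool) : Ω → ℝ := fun σ => if F σ = F' σ then 0 else 1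

/-- a Boolean function as a real function -/
def bf {Ω : Type} (F : Ω → Bool) : Ω → ℝ := fun σ => if F σ = true then 1 else 0

/-- evaluation at a vertex -/
def ev (v : V) : (V → Bool) → Bool := fun σ => σ v

variable [Fintype V]

theorem integrableOn_pat (m : V → ℝ) (G : (V → Bool) → ℝ) :
    IntegrableOn (fun τ => G (pat m τ) - G z0) (Ioi (0 : ℝ)) := by
  classical
  have hm : Measurable fun τ => G (pat m τ) - G z0 := by
    refine Measurable.sub_const (Measurable.comp (Measurable.of_discrete) ?_) _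
    refine measurable_pi_lambda _ fun v => ?_
    refine measurable_to_bool ?_
    have : (fun τ => pat m τ v) ⁻¹' {true} = Iio (m v) := by ext τ; simp [pat]
    rw [this]; exact measurableSet_Iio
  set R : ℝ := ∑ v, |m v| with hR
  have h1 : IntegrableOn (fun τ => G (pat m τ) - G z0) (Ioc (0 : ℝ) R) := by
    refine Measure.integrableOn_of_bounded (M := ∑ σ, |G σ - G z0|) (by simp)
      hm.aestronglyMeasurable (Filter.Eventually.of_forall fun τ => ?_)
    exact Finset.single_le_sum (f := fun σ => |G σ - G z0|) (fun _ _ => abs_nonneg _)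
      (Finset.mem_univ _)
  refine h1.of_forall_sdiff_eq_zero measurableSet_Ioi fun τ hτ => ?_
  have h2 : R < τ := by
    by_contra h
    exact hτ.2 ⟨hτ.1, not_lt.1 h⟩
  have h3 : pat m τ = z0 := by
    funext v
    have : |m v| ≤ R := Finset.single_le_sum (f := fun v => |m v|) (fun _ _ => abs_nonneg _)
      (Finset.mem_univ v)
    have := le_abs_self (m v)
    simp only [pat, z0, decide_eq_false_iff_not, not_lt]
    linarith
  rw [h3, sub_self]

/-- the integral over the positive levels -/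
noncomputable def Tp (m : V → ℝ) : ((V → Bool) → ℝ) →ₗ[ℝ] ℝ where
  toFun G := ∫ τ in Ioi (0 : ℝ), (G (pat m τ) - G z0)
  map_add' G G' := by
    rw [← integral_add (integrableOn_pat m G) (integrableOn_pat m G')]
    refine integral_congr_ae (Filter.Eventually.of_forall fun τ => ?_)
    simp only [Pi.add_apply]; ring
  map_smul' c G := by
    simp only [RingHom.id_apply, smul_eq_mul, Pi.smul_apply]
    rw [← integral_const_mul]
    refine integral_congr_ae (Filter.Eventually.of_forall fun τ => ?_)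
    ring

theorem Tp_apply (m : V → ℝ) (G : (V → Bool) → ℝ) :
    Tp m G = ∫ τ in Ioi (0 : ℝ), (G (pat m τ) - G z0) := rfl

theorem Tp_congr {m m' : V → ℝ} {G G' : (V → Bool) → ℝ}
    (h : ∀ τ, 0 < τ → G (pat m τ) - G z0 = G' (pat m' τ) - G' z0) : Tp m G = Tp m' G' :=
  setIntegral_congr_fun measurableSet_Ioi fun τ hτ => h τ hτ

theorem Tp_mono (m : V → ℝ) {G G' : (V → Bool) → ℝ} (h : ∀ σ, G σ - G z0 ≤ G' σ - G' z0) :
    Tp m G ≤ Tp m G' :=
  setIntegral_mono (integrableOn_pat m G) (integrableOn_pat m G') fun _ => h _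

theorem Tp_eq_zero {m : V → ℝ} {G : (V → Bool) → ℝ} (h : ∀ τ, 0 < τ → G (pat m τ) = G z0) :
    Tp m G = 0 := by
  rw [Tp_congr (m' := m) (G' := 0) fun τ hτ => by simp [h τ hτ], map_zero]

theorem Tp_eq_of_Ico {m : V → ℝ} {G : (V → Bool) → ℝ} {a b : ℝ} (ha : 0 ≤ a)
    (h : ∀ τ, 0 < τ → G (pat m τ) - G z0 = if a ≤ τ ∧ τ < b then 1 else 0) :
    Tp m G = max (b - a) 0 := by
  have h1 : Tp m G = ∫ τ in Ioi (0 : ℝ), (Ico a b).indicator (fun _ => (1 : ℝ)) τ :=
    setIntegral_congr_fun measurableSet_Ioi fun τ hτ => by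
      simp only [h τ hτ, indicator, mem_Ico]
  rw [h1, setIntegral_indicator measurableSet_Ico, setIntegral_const, smul_eq_mul, mul_one]
  have h2 : (Ioi (0 : ℝ) ∩ Ico a b : Set ℝ) =ᵐ[volume] Ico a b := by
    have h0 : ∀ᵐ τ : ℝ, τ ≠ 0 := by simp [ae_iff]
    filter_upwards [h0] with τ hτ
    refine propext ⟨fun h => h.2, fun h => ⟨lt_of_le_of_ne (ha.trans h.1) hτ.symm, h⟩⟩
  rw [measureReal_congr h2, Real.volume_real_Ico]

theorem Tp_ev (m : V → ℝ) (v : V) : Tp m (bf (ev v)) = max (m v) 0 := by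
  rw [Tp_eq_of_Ico (a := 0) (b := m v) le_rfl fun τ hτ => ?_, sub_zero]
  simp [bf, ev, pat, z0, hτ.le]

theorem Tp_dis (m : V → ℝ) (x y : V) :
    Tp m (dis (ev x) (ev y)) = |max (m x) 0 - max (m y) 0| := by
  have key : ∀ x y : V, m x ≤ m y → Tp m (dis (ev x) (ev y)) = max (m y) 0 - max (m x) 0 := by
    intro x y h
    rw [← Tp_ev, ← Tp_ev, ← map_sub]
    refine Tp_congr fun τ _ => ?_
    by_cases h1 : τ < m x
    · simp [dis, bf, ev, pat, z0, h1, h1.trans_le h]
    · by_cases h2 : τ < m y <;> simp [dis, bf, ev, pat, z0, h1, h2]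
  rcases le_total (m x) (m y) with h | h
  · rw [key x y h, abs_sub_comm, abs_of_nonneg (sub_nonneg.2 (max_le_max h le_rfl))]
  · have : dis (ev x) (ev y) = dis (ev y) (ev x) := by funext σ; simp [dis, eq_comm]
    rw [this, key y x h, abs_of_nonneg (sub_nonneg.2 (max_le_max h le_rfl))]

/-- `m` vanishes at `o` and is weakly ordered like `m₀` on `A`. -/
def Cone (A : Set V) (o : V) (m₀ m : V → ℝ) : Prop :=
  m o = 0 ∧ ∀ u ∈ A, ∀ v ∈ A, m₀ u ≤ m₀ v → m u ≤ m v

open Classical in
/-- On a cone the functional `Tp m G` is linear in `m` (comonotone additivity). -/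
theorem exists_linear_Tp {A : Set V} {o : V} (ho : o ∈ A) (m₀ : V → ℝ) {G : (V → Bool) → ℝ}
    (hG : DependsOn G A) : ∃ L : (V → ℝ) →ₗ[ℝ] ℝ, ∀ m, Cone A o m₀ m → Tp m G = L m := by
  let r : (V → Bool) → V → Bool := fun σ v => if v ∈ A then σ v else false
  let I : (V → Bool) → (V → Bool) → ℝ := fun ρ σ => if r σ = ρ then 1 else 0
  have hr0 : r z0 = z0 := by funext v; simp [r, z0]
  have h1 : ∀ ρ, ρ ≠ z0 → ∃ L : (V → ℝ) →ₗ[ℝ] ℝ, ∀ m, Cone A o m₀ m → Tp m (I ρ) = L m := by
    intro ρ hρ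
    have hI0 : I ρ z0 = 0 := by simp [I, hr0, hρ.symm]
    by_cases hs : ρ o = false ∧ ∀ v, ρ v = true → v ∈ A
    swap
    · refine ⟨0, fun m hm => Tp_eq_zero fun τ hτ => ?_⟩
      rw [hI0]
      refine if_neg fun e => hs ⟨?_, fun v hv => ?_⟩
      · rw [← e]; simp [r, ho, pat, hm.1, hτ.le]
      · by_contra hv'
        rw [← e] at hv
        simp [r, hv'] at hv
    obtain ⟨u, hu, hu'⟩ := (Finset.univ.filter fun v => ρ v = true).exists_min_image m₀ (by
      by_contra hn
      refine hρ (funext fun v => ?_)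
      by_contra hv
      exact hn ⟨v, by simpa [z0] using hv⟩)
    obtain ⟨w, hw, hw'⟩ := (Finset.univ.filter fun v => v ∈ A ∧ ρ v = false).exists_max_image m₀
      ⟨o, by simp [ho, hs.1]⟩
    simp only [Finset.mem_filter, Finset.mem_univ, true_and] at hu hu' hw hw'
    have h2 : ∀ m, Cone A o m₀ m → Tp m (I ρ) = max (m u - m w) 0 := by
      intro m hm
      refine Tp_eq_of_Ico (hm.1 ▸ hm.2 o ho w hw.1 (hw' o ⟨ho, hs.1⟩)) fun τ _ => ?_
      rw [hI0, sub_zero]
      refine if_congr ⟨fun e => ⟨?_, ?_⟩, fun e => funext fun v => ?_⟩ rfl rfl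
      · have := congrFun e w
        simpa [r, hw.1, hw.2, pat] using this
      · have := congrFun e u
        simpa [r, hs.2 u hu, hu, pat] using this
      · by_cases hv : ρ v = true
        · have := hm.2 u (hs.2 u hu) v (hs.2 v hv) (hu' v hv)
          simp only [r, hs.2 v hv, if_true, pat, hv, decide_eq_true_eq]
          linarith [e.2]
        · have hv' : ρ v = false := by simpa using hv
          by_cases hA : v ∈ A
          · have := hm.2 v hA w hw.1 (hw' v ⟨hA, hv'⟩)
            simp only [r, hA, if_true, pat, hv', decide_eq_false_iff_not, not_lt]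
            linarith [e.1]
          · simp [r, hA, hv']
    rcases le_total (m₀ u) (m₀ w) with h | h
    · refine ⟨0, fun m hm => ?_⟩
      rw [h2 m hm, max_eq_right (sub_nonpos.2 (hm.2 u (hs.2 u hu) w hw.1 h))]
      rfl
    · refine ⟨LinearMap.proj (R := ℝ) (φ := fun _ => ℝ) u -
        LinearMap.proj (R := ℝ) (φ := fun _ => ℝ) w, fun m hm => ?_⟩
      rw [h2 m hm, max_eq_left (sub_nonneg.2 (hm.2 w hw.1 u (hs.2 u hu) h))]
      rfl
  choose! L hL using h1
  refine ⟨∑ ρ, (G ρ - G z0) • L ρ, fun m hm => ?_⟩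
  have h3 : Tp m G = Tp m (∑ ρ, (G ρ - G z0) • I ρ) := by
    refine Tp_congr fun τ _ => ?_
    have : G (r (pat m τ)) = G (pat m τ) := hG fun v hv => by simp [r, hv]
    simp [I, Finset.sum_apply, hr0, this]
  rw [h3, map_sum, LinearMap.sum_apply]
  refine Finset.sum_congr rfl fun ρ _ => ?_
  by_cases hρ : ρ = z0
  · simp [hρ]
  · rw [map_smul, hL ρ hρ m hm, LinearMap.smul_apply]

/-- the cut measure of `m` -/
noncomputable def thr (m : V → ℝ) : ((V → Bool) → ℝ) →ₗ[ℝ] ℝ := Tp m + Tp (-m)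

/-- the signed functional recovering the values of `m` -/
noncomputable def lam (m : V → ℝ) : ((V → Bool) → ℝ) →ₗ[ℝ] ℝ := Tp m - Tp (-m)

theorem thr_mono (m : V → ℝ) {G G' : (V → Bool) → ℝ} (h : ∀ σ, G σ - G z0 ≤ G' σ - G' z0) :
    thr m G ≤ thr m G' := add_le_add (Tp_mono m h) (Tp_mono _ h)

theorem thr_nonneg (m : V → ℝ) {G : (V → Bool) → ℝ} (h : ∀ σ, G z0 ≤ G σ) : 0 ≤ thr m G := by
  simpa using thr_mono m (G := 0) (G' := G) fun σ => by simpa using h σ

theorem thr_const (m : V → ℝ) (c : ℝ) : thr m (fun _ => c) = 0 := by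
  simp [thr, Tp_apply]

theorem thr_dis (m : V → ℝ) (x y : V) : thr m (dis (ev x) (ev y)) = |m x - m y| := by
  simp only [thr, LinearMap.add_apply, Tp_dis, Pi.neg_apply]
  rcases le_total (m x) 0 with h1 | h1 <;> rcases le_total (m y) 0 with h2 | h2
  · rw [max_eq_right h1, max_eq_right h2, max_eq_left (neg_nonneg.2 h1),
      max_eq_left (neg_nonneg.2 h2), sub_self, abs_zero, zero_add, ← abs_neg]
    congr 1; ring
  · rw [max_eq_right h1, max_eq_left h2, max_eq_left (neg_nonneg.2 h1),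
      max_eq_right (neg_nonpos.2 h2), abs_of_nonpos (by linarith), abs_of_nonneg (by linarith),
      abs_of_nonpos (by linarith)]
    ring
  · rw [max_eq_left h1, max_eq_right h2, max_eq_right (neg_nonpos.2 h1),
      max_eq_left (neg_nonneg.2 h2), abs_of_nonneg (by linarith), abs_of_nonpos (by linarith),
      abs_of_nonneg (by linarith)]
    ring
  · rw [max_eq_left h1, max_eq_left h2, max_eq_right (neg_nonpos.2 h1),
      max_eq_right (neg_nonpos.2 h2), sub_self, abs_zero, add_zero]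

theorem thr_ev (m : V → ℝ) (v : V) : thr m (bf (ev v)) = |m v| := by
  simp only [thr, LinearMap.add_apply, Tp_ev, Pi.neg_apply]
  rcases le_total (m v) 0 with h | h
  · rw [max_eq_right h, max_eq_left (neg_nonneg.2 h), abs_of_nonpos h, zero_add]
  · rw [max_eq_left h, max_eq_right (neg_nonpos.2 h), abs_of_nonneg h, add_zero]

theorem lam_ev (m : V → ℝ) (v : V) : lam m (bf (ev v)) = m v := by
  simp only [lam, LinearMap.sub_apply, Tp_ev, Pi.neg_apply]
  rcases le_total (m v) 0 with h | h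
  · rw [max_eq_right h, max_eq_left (neg_nonneg.2 h)]; ring
  · rw [max_eq_left h, max_eq_right (neg_nonpos.2 h)]; ring

theorem lam_sub_le (m : V → ℝ) {F F' : (V → Bool) → Bool} (h : F z0 = F' z0) :
    lam m (bf F) - lam m (bf F') ≤ thr m (dis F F') := by
  have key : ∀ (m : V → ℝ) (F F' : (V → Bool) → Bool), F z0 = F' z0 →
      Tp m (bf F) - Tp m (bf F') ≤ Tp m (dis F F') := by
    intro m F F' h
    rw [← map_sub]
    refine Tp_mono m fun σ => ?_
    simp only [Pi.sub_apply, bf, dis, h]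
    cases F σ <;> cases F' σ <;> simp
  have h1 := key m F F' h
  have h2 := key (-m) F' F h.symm
  have h3 : dis F' F = dis F F' := by funext σ; simp [dis, eq_comm]
  rw [h3] at h2
  simp only [lam, thr, LinearMap.add_apply, LinearMap.sub_apply]
  linarith

theorem Tp_congr_dep {A : Set V} {G : (V → Bool) → ℝ} (hG : DependsOn G A) {m m' : V → ℝ}
    (h : ∀ v ∈ A, m v = m' v) : Tp m G = Tp m' G :=
  Tp_congr fun τ _ => by rw [hG (y := pat m' τ) fun v hv => by simp [pat, h v hv]]

theorem thr_congr_dep {A : Set V} {G : (V → Bool) → ℝ} (hG : DependsOn G A) {m m' : V → ℝ}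
    (h : ∀ v ∈ A, m v = m' v) : thr m G = thr m' G := by
  simp only [thr, LinearMap.add_apply]
  rw [Tp_congr_dep hG h, Tp_congr_dep hG (m := -m) (m' := -m') fun v hv => by simp [h v hv]]

theorem lam_congr_dep {A : Set V} {G : (V → Bool) → ℝ} (hG : DependsOn G A) {m m' : V → ℝ}
    (h : ∀ v ∈ A, m v = m' v) : lam m G = lam m' G := by
  simp only [lam, LinearMap.sub_apply]
  rw [Tp_congr_dep hG h, Tp_congr_dep hG (m := -m) (m' := -m') fun v hv => by simp [h v hv]]

theorem exists_linear_thr {A : Set V} {o : V} (ho : o ∈ A) (m₀ : V → ℝ) {G : (V → Bool) → ℝ}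
    (hG : DependsOn G A) : ∃ L : (V → ℝ) →ₗ[ℝ] ℝ, ∀ m, Cone A o m₀ m → thr m G = L m := by
  obtain ⟨L, hL⟩ := exists_linear_Tp ho m₀ hG
  obtain ⟨L', hL'⟩ := exists_linear_Tp ho (-m₀) hG
  refine ⟨L - L', fun m hm => ?_⟩
  have h : Cone A o (-m₀) (-m) := ⟨by simp [hm.1], fun u hu v hv h => by
    simpa using hm.2 v hv u hu (by simpa using h)⟩
  simp only [thr, LinearMap.add_apply, LinearMap.sub_apply, hL m hm, hL' _ h, map_neg]
  ring

end Crest.Agent.N206.TW
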