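import Crest.Agent.N206.TW.Defs

/-!
# Row 206, S0318: rooting a tree decomposition (helper20)
-/

set_option autoImplicit false

namespace Crest.Agent.N206.TW

open Crest.GeometryTopology.GraphMetric Crest.Agent.R206.Iface534

theorem tree_rooted {ι : Type} (T : SimpleGraph ι) (hT : T.IsTree) (r : ι) :
    ∃ par : ι → ι, par r = r ∧ (∀ t, t ≠ r → T.dist (par t) r + 1 = T.dist t r) ∧
      ∀ a b, T.Adj a b → b = par a ∨ a = par b := by
  classical
  have hc := hT.connected
  have hex : ∀ t, t ≠ r → ∃ a, T.Adj t a ∧ T.dist a r + 1 = T.dist t r := by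
    intro t ht
    obtain ⟨p, hp⟩ := hc.exists_walk_length_eq_dist t r
    cases p with
    | nil => exact absurd rfl ht
    | @cons _ a _ h q =>
      refine ⟨a, h, le_antisymm ?_ ?_⟩
      · rw [← hp, SimpleGraph.Walk.length_cons]
        exact Nat.succ_le_succ (SimpleGraph.dist_le q)
      · obtain ⟨q', hq'⟩ := hc.exists_walk_length_eq_dist a r
        rw [← hq']
        exact SimpleGraph.dist_le (SimpleGraph.Walk.cons h q')
  have huniq : ∀ t a a', T.Adj t a → T.Adj t a' → T.dist a r + 1 = T.dist t r →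
      T.dist a' r + 1 = T.dist t r → a = a' := by
    intro t a a' h h' hd hd'
    obtain ⟨q, hq⟩ := hc.exists_walk_length_eq_dist a r
    obtain ⟨q', hq'⟩ := hc.exists_walk_length_eq_dist a' r
    have h1 : (SimpleGraph.Walk.cons h q).IsPath :=
      SimpleGraph.Walk.isPath_of_length_eq_dist _ (by rw [SimpleGraph.Walk.length_cons, hq, hd])
    have h2 : (SimpleGraph.Walk.cons h' q').IsPath :=
      SimpleGraph.Walk.isPath_of_length_eq_dist _ (by rw [SimpleGraph.Walk.length_cons, hq', hd'])
    have h3 := (hT.existsUnique_path t r).unique h1 h2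
    have h4 := congrArg SimpleGraph.Walk.snd h3
    simpa using h4
  choose f hf using hex
  let par : ι → ι := fun t => if h : t = r then r else f t h
  have hpar : ∀ t (h : t ≠ r), par t = f t h := fun t h => dif_neg h
  have key : ∀ a b, T.Adj a b → T.dist b r + 1 = T.dist a r → b = par a := by
    intro a b h hd
    have ha : a ≠ r := by
      rintro rfl
      simp at hd
    rw [hpar a ha]
    exact huniq a _ _ h (hf a ha).1 hd (hf a ha).2
  refine ⟨par, dif_pos rfl, fun t ht => by rw [hpar t ht]; exact (hf t ht).2, fun a b h => ?_⟩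
  rcases hT.dist_eq_dist_add_one_of_adj r h with h1 | h1
  · exact Or.inl (key a b h (by rw [T.dist_comm, T.dist_comm (u := a), h1]))
  · exact Or.inr (key b a h.symm (by rw [T.dist_comm, T.dist_comm (u := b), h1]))

theorem tree_key {ι : Type} {T : SimpleGraph ι} {par : ι → ι}
    (hadj : ∀ a b, T.Adj a b → b = par a ∨ a = par b) {S : Set ι} (l : ι) {x y : S}
    (p : (T.induce S).Walk x y) (hx : ∃ n, par^[n] x = l) (hy : ¬ ∃ n, par^[n] y = l) :
    l ∈ S ∧ par l ∈ S := by
  induction p with
  | nil => exact absurd hx hy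
  | @cons x x' y h q ih =>
    by_cases hx' : ∃ n, par^[n] x' = l
    · exact ih hx' hy
    · obtain ⟨n, hn⟩ := hx
      rcases hadj x x' h with h1 | h1
      · cases n with
        | zero =>
          have h2 : (x : ι) = l := hn
          exact ⟨h2 ▸ x.2, by rw [← h2, ← h1]; exact x'.2⟩
        | succ n => exact absurd ⟨n, by rw [h1]; exact hn⟩ hx'
      · exact absurd ⟨n + 1, by rw [Function.iterate_succ_apply, ← h1]; exact hn⟩ hx'

theorem tree_enum {V : Type} (k : ℕ) (o : V) (S : Finset V) (ho : o ∈ S) (hS : S.card ≤ k + 1) :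
    ∃ f : Fin (k + 1) → V, Set.range f = S := by
  refine ⟨fun i => if h : (i : ℕ) < S.card then (S.equivFin.symm ⟨i, h⟩ : V) else o, ?_⟩
  ext v
  constructor
  · rintro ⟨i, rfl⟩
    by_cases h : (i : ℕ) < S.card
    · simp only [dif_pos h]; exact (S.equivFin.symm ⟨i, h⟩).2
    · simp only [dif_neg h]; exact ho
  · intro hv
    have h := (S.equivFin ⟨v, hv⟩).2
    exact ⟨⟨S.equivFin ⟨v, hv⟩, lt_of_lt_of_le h hS⟩, by simp⟩

theorem tree : TreeStmt := by
  classical
  intro k V _ G hG hdec ℓ hℓ
  obtain ⟨ι, hι, T, B, hT, hcov, hedge, hconn, hcard⟩ := hdec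
  obtain ⟨o⟩ := hG.nonempty
  obtain ⟨r⟩ := hT.connected.nonempty
  obtain ⟨par, hpr, hdep, hadj⟩ := tree_rooted T hT r
  have hroot : ∀ s, ∃ n, par^[n] s = r := by
    intro s
    induction h : T.dist s r generalizing s with
    | zero =>
      by_cases hs : s = r
      · exact ⟨0, hs⟩
      · have := hdep s hs; omega
    | succ m ih =>
      have hs : s ≠ r := by
        rintro rfl
        simp at h
      obtain ⟨n, hn⟩ := ih (par s) (by have := hdep s hs; omega)
      exact ⟨n + 1, hn⟩
  have key : ∀ (v : V) (l s s' : ι), (∃ n, par^[n] s = l) → (¬ ∃ n, par^[n] s' = l) →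
      v ∈ B s → v ∈ B s' → v ∈ B l ∧ v ∈ B (par l) := by
    intro v l s s' hs hs' hv hv'
    obtain ⟨p⟩ := (hconn v).preconnected ⟨s, hv⟩ ⟨s', hv'⟩
    exact tree_key hadj l p hs hs'
  let A : ι → Finset V := fun t => if t = r then {o} else insert o (B t ∩ B (par t))
  have hoA : ∀ t, o ∈ A t := fun t => by
    by_cases h : t = r <;> simp [A, h]
  have hA : ∀ t, A t ⊆ insert o (B t ∩ B (par t)) := fun t => by
    by_cases h : t = r <;> simp [A, h]
  have hA' : ∀ (v : V) (l s' : ι), (¬ ∃ n, par^[n] s' = l) → v ∈ B l ∧ v ∈ B (par l) →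
      v ∈ A l := by
    intro v l s' hs' hv
    have hl : l ≠ r := fun h => hs' (h ▸ hroot s')
    simp [A, hl, hv.1, hv.2]
  have hcB : ∀ t, (insert o (B t)).card ≤ k + 1 := fun t =>
    (Finset.card_insert_le _ _).trans (Nat.succ_le_succ (hcard t))
  have hAB : ∀ t, A t ⊆ insert o (B t) := fun t =>
    (hA t).trans (Finset.insert_subset_insert _ Finset.inter_subset_left)
  have hAP : ∀ t, A t ⊆ insert o (B (par t)) := fun t =>
    (hA t).trans (Finset.insert_subset_insert _ Finset.inter_subset_right)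
  choose bag hbag using fun t => tree_enum k o (insert o (B t)) (Finset.mem_insert_self _ _) (hcB t)
  choose adh hadh using fun t =>
    tree_enum k o (A t) (hoA t) ((Finset.card_le_card (hAB t)).trans (hcB t))
  have hsep : ∀ (l : ι) (a : V) (s' : ι), (¬ ∃ n, par^[n] s' = l) → a ∈ B s' →
      ∀ (z : V) (p : G.Walk z a) (s : ι), (∃ n, par^[n] s = l) → z ∈ B s →
        ∃ u ∈ A l, wdist G ℓ z u + wdist G ℓ u a ≤ (p.edges.map ℓ).sum := by
    intro l a s' hs' ha z p
    have hout : ∀ (z : V) (p : G.Walk z a) (s t : ι), (∃ n, par^[n] s = l) → z ∈ B s →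
        (¬ ∃ n, par^[n] t = l) → z ∈ B t →
        ∃ u ∈ A l, wdist G ℓ z u + wdist G ℓ u a ≤ (p.edges.map ℓ).sum := by
      intro z p s t hs hz ht hzt
      refine ⟨z, hA' z l t ht (key z l s t hs ht hz hzt), ?_⟩
      rw [wdist_self hG hℓ, zero_add]
      exact wdist_le_walk hℓ p
    induction p with
    | nil => exact fun s hs hz => hout _ _ s s' hs hz hs' ha
    | @cons z z' a h q ih =>
      intro s hs hz
      obtain ⟨t, hzt, hz't⟩ := hedge z z' h
      by_cases ht : ∃ n, par^[n] t = l
      · obtain ⟨u, hu, hle⟩ := ih ha hout t ht hz't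
        refine ⟨u, hu, ?_⟩
        have h1 := wdist_triangle hG hℓ z z' u
        have h2 := wdist_edge_le hℓ h
        simp only [SimpleGraph.Walk.edges_cons, List.map_cons, List.sum_cons]
        linarith
      · exact hout _ _ s t hs hz ht hzt
  refine ⟨ι, hι, ⟨{
    root := r, par := par, dep := fun t => T.dist t r, o := o, bag := bag, adh := adh
    par_root := hpr, dep_root := by simp, dep_par := hdep
    adh_root := fun c => ?_, o_mem := fun t => ?_, adh_bag := fun t => ?_, adh_par := fun t => ?_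
    cover := fun v => ?_, run := fun t s hs v hv => ?_, sep := fun l s s' hs hs' z hz a ha => ?_
    lip := fun ρ C hC hρ h => ?_ }⟩⟩
  · have h : adh r c ∈ Set.range (adh r) := ⟨c, rfl⟩
    rw [hadh] at h
    simpa [A] using h
  · rw [hadh]; exact hoA t
  · rw [hadh, hbag]; exact hAB t
  · rw [hadh, hbag]; exact hAP t
  · obtain ⟨t, ht⟩ := hcov v
    exact ⟨t, by rw [hbag]; exact Finset.mem_insert_of_mem ht⟩
  · rw [hbag, hbag] at hv
    rw [hadh]
    obtain ⟨h1, h2⟩ := hv
    rcases Finset.mem_insert.1 h1 with rfl | h1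
    · exact hoA t
    rcases Finset.mem_insert.1 h2 with rfl | h2
    · exact hoA t
    exact hA' v t s hs (key v t t s ⟨0, rfl⟩ hs h1 h2)
  · rw [hbag] at hz ha
    rw [hadh]
    rcases Finset.mem_insert.1 hz with rfl | hz
    · exact ⟨z, hoA l, by rw [wdist_self hG hℓ, zero_add]⟩
    rcases Finset.mem_insert.1 ha with rfl | ha
    · exact ⟨a, hoA l, by rw [wdist_self hG hℓ, add_zero]⟩
    obtain ⟨u, hu, hmin⟩ := Finset.exists_min_image (A l)
      (fun u => wdist G ℓ z u + wdist G ℓ u a) ⟨o, hoA l⟩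
    refine ⟨u, hu, le_antisymm (wdist_triangle hG hℓ z u a) (le_wdist hG fun p => ?_)⟩
    obtain ⟨u', hu', hle⟩ := hsep l a s' hs' ha z p s hs hz
    exact (hmin u' hu').trans hle
  · refine le_mul_wdist hG ρ C hC hρ.self hρ.tri fun u v huv => ?_
    obtain ⟨t, hu, hv⟩ := hedge u v huv
    refine (h t u ?_ v ?_).trans (mul_le_mul_of_nonneg_left (wdist_edge_le hℓ huv) hC)
    · rw [hbag]; exact Finset.mem_insert_of_mem hu
    · rw [hbag]; exact Finset.mem_insert_of_mem hv

end Crest.Agent.N206.TW
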